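import Vale.Agent.P217.Sharp.Trunc

/-!
P217, module M5: basic properties of `L_m` in an untilt.
-/

open MvPowerSeries

noncomputable section

namespace Vale.Agent.P217.Sharp

variable {p : ℕ} [hp : Fact p.Prime] {L : Type} [Field L] (U : Untilt p L) {m : ℕ}
  {G : FormalGroup (Kb p)}

theorem honda_coeff_pow (hG : IsHondaKb p m G) (d : Fin 2 →₀ ℕ) :
    coeff d G.toPowerSeries ^ p = coeff d G.toPowerSeries := by
  obtain ⟨-, G₀, hG₀, -⟩ := hG
  rw [← hG₀, FormalGroup.map_toPowerSeries, coeff_map, RingHom.comp_apply, ← map_pow,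
    ZMod.pow_card]

theorem fadd_pow (hG : IsHondaKb p m G) {u w : C p} (hu : 0 < ord u) (hw : 0 < ord w) :
    fadd p HahnSeries.C G u w ^ p = fadd p HahnSeries.C G (u ^ p) (w ^ p) := by
  have h := evalC_pow_char_pow (intCoeff_residue G.toPowerSeries) (vec2_pos hu hw) 1
  rw [pow_one] at h
  rw [fadd, h, fadd, evalC, evalC]
  congr 1
  funext d
  congr 1
  · rw [RingHom.comp_apply, iterateFrobenius_def, pow_one, ← map_pow, honda_coeff_pow hG]

theorem powZ_fadd (hG : IsHondaKb p m G) {u w : C p} (hu : 0 < ord u) (hw : 0 < ord w) (j : ℤ) :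
    powZ p (fadd p HahnSeries.C G u w) j =
      fadd p HahnSeries.C G (powZ p u j) (powZ p w j) := by
  induction j using Int.induction_on with
  | zero => simp only [powZ_zero]
  | succ j ih =>
    rw [powZ_add_one, ih, fadd_pow hG (ord_powZ_pos hu _) (ord_powZ_pos hw _), ← powZ_add_one,
      ← powZ_add_one]
  | pred j ih =>
    refine pow_char_injective ?_
    show _ ^ p = _ ^ p
    rw [← powZ_add_one, fadd_pow hG (ord_powZ_pos hu _) (ord_powZ_pos hw _), ← powZ_add_one,
      ← powZ_add_one, sub_add_cancel, ih]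

theorem part_eq_fser (V : C p) (N : ℕ) :
    part U m V N =
      (p : L) ^ N * fser p m (2 * N) (U.sharp (powZ p V (-((m : ℤ) * N)))) := by
  rw [part, fser, Finset.mul_sum]
  refine Finset.sum_nbij' (fun k => (k + N).toNat) (fun i => (i : ℤ) - N) ?_ ?_ ?_ ?_ ?_
  · intro k hk; simp only [Finset.mem_Icc, Finset.mem_range] at hk ⊢; omega
  · intro k hk; simp only [Finset.mem_Icc, Finset.mem_range] at hk ⊢; omega
  · intro k hk; simp only [Finset.mem_Icc] at hk; omega
  · intro k _; omega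
  · intro k hk
    simp only [Finset.mem_Icc] at hk
    obtain ⟨i, hi⟩ : ∃ i : ℕ, k + N = i := ⟨(k + N).toNat, by omega⟩
    simp only [hi, Int.toNat_natCast]
    rw [term, ← map_pow, ← powZ_natCast, powZ_powZ, ← mul_assoc, ← zpow_natCast (p : L) N,
      ← zpow_add₀ (p_ne_zero U)]
    have hk' : k = (i : ℤ) - N := by omega
    subst hk'
    congr 2
    · ring
    · congr 1; push_cast; ring

theorem isLn_fadd (hm : 1 ≤ m) (hG : IsHondaKb p m G) {V V' : C p} (hV : 0 < ord V)
    (hV' : 0 < ord V') {y y' : L} (h : U.IsLn m V y) (h' : U.IsLn m V' y') :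
    U.IsLn m (fadd p HahnSeries.C G V V') (y + y') := by
  intro B
  obtain ⟨a₁, ha₁, hV₁⟩ := exists_pos_le_ord hV
  obtain ⟨a₂, ha₂, hV₂⟩ := exists_pos_le_ord hV'
  set a := min a₁ a₂
  have ha : 0 < a := lt_min ha₁ ha₂
  obtain ⟨N₁, hN₁⟩ := h B
  obtain ⟨N₂, hN₂⟩ := h' B
  obtain ⟨N₃, hN₃⟩ := exists_growth (p := p) hm (half_pos ha) 0
  obtain ⟨N₄, hN₄⟩ := exists_nat_gt B
  refine ⟨max (max N₁ N₂) (max N₃ (N₄ + 1)), fun N hN => ?_⟩
  show (B : WithTop ℚ) < U.v (y + y' - part U m (fadd p HahnSeries.C G V V') N)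
  set j : ℤ := -((m : ℤ) * N) with hj
  set ε : ℚ := (p : ℚ) ^ j * a with hεdef
  have hp0 : (0 : ℚ) < p := by exact_mod_cast hp.out.pos
  have hε : 0 < ε := mul_pos (zpow_pos hp0 _) ha
  have hz : (ε : WithTop ℚ) ≤ ord (powZ p V j) :=
    le_ord_powZ ((WithTop.coe_le_coe.2 (min_le_left _ _)).trans hV₁) j
  have hw : (ε : WithTop ℚ) ≤ ord (powZ p V' j) :=
    le_ord_powZ ((WithTop.coe_le_coe.2 (min_le_right _ _)).trans hV₂) j
  have hD : ((2 * N : ℕ) : ℚ) ≤ ((p ^ (m * (2 * N + 1)) : ℕ) : ℚ) * ε := by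
    have h3 := hN₃ N (by omega)
    have e : ((p ^ (m * (2 * N + 1)) : ℕ) : ℚ) * ε = a * ((p : ℚ) ^ m) ^ N * (p : ℚ) ^ m := by
      rw [hεdef, hj, Nat.cast_pow, zpow_neg, zpow_mul, zpow_natCast, zpow_natCast,
        ← pow_mul, show m * (2 * N + 1) = m * N + m * N + m by ring, pow_add, pow_add]
      field_simp
    rw [e]
    push_cast
    have := two_le_pow (p := p) hm
    nlinarith [pow_pos (lt_of_lt_of_le two_pos (two_le_pow (p := p) hm)) N]
  have key : ((N : ℚ) : WithTop ℚ) ≤ U.v (part U m (fadd p HahnSeries.C G V V') N -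
      part U m V N - part U m V' N) := by
    rw [part_eq_fser, part_eq_fser, part_eq_fser, powZ_fadd hG hV hV', ← mul_sub, ← mul_sub,
      AddValuation.map_mul, v_p_pow]
    exact le_add_of_nonneg_right
      (v_fser_fadd U hm hG hε hz hw (by omega) hD)
  rw [show y + y' - part U m (fadd p HahnSeries.C G V V') N =
    (y - part U m V N) + (y' - part U m V' N) - (part U m (fadd p HahnSeries.C G V V') N -
      part U m V N - part U m V' N) by ring]
  refine (lt_min ((lt_min (hN₁ N (by omega)) (hN₂ N (by omega))).trans_le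
    (AddValuation.map_add _ _ _)) (lt_of_lt_of_le (WithTop.coe_lt_coe.2 ?_) key)).trans_le
    (AddValuation.map_sub _ _ _)
  exact hN₄.trans_le (by exact_mod_cast (show N₄ ≤ N by omega))

end Vale.Agent.P217.Sharp

namespace Vale.Agent.P217

/-- Basic properties of `L_m` in an untilt. -/
theorem lnStatement (p : ℕ) [Fact p.Prime] : LnStatement p :=
  fun _ _ U _ hm => ⟨
    fun _ hV => ⟨(Sharp.exists_isLn U hm hV).choose, (Sharp.exists_isLn U hm hV).choose_spec,
      fun _ h => Sharp.isLn_unique U h (Sharp.exists_isLn U hm hV).choose_spec⟩,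
    fun _ hG _ _ hV hV' _ _ h h' => Sharp.isLn_fadd U hm hG hV hV' h h',
    fun _ hω _ _ h => Sharp.isLn_const_mul U hω h,
    fun _ _ h => Sharp.isLn_pow U h,
    fun B => Sharp.exists_ord_isLn_ne_zero U hm B⟩

end Vale.Agent.P217
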