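import Vale.Agent.P217.Sharp.Growth

/-!
P217, module M5: the truncated logarithm in an untilt turns the Honda law into addition,
up to elements of nonnegative valuation.
-/

open MvPowerSeries

noncomputable section

namespace Vale.Agent.P217.Sharp

variable {p : ℕ} [hp : Fact p.Prime] {L : Type} [Field L] (U : Untilt p L) {m : ℕ}

theorem sharp_natCast (k : ℕ) : 1 ≤ U.v (U.sharp (k : C p) - (k : L)) := by
  induction k with
  | zero => simp [U.sharp_zero]
  | succ k ih =>
    have h := U.sharp_add (k : C p) 1 (natCast_mem (OC p) k) (by simp)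
    rw [map_one] at h
    push_cast
    rw [show U.sharp ((k : C p) + 1) - ((k : L) + 1) =
      (U.sharp ((k : C p) + 1) - U.sharp (k : C p) - 1) + (U.sharp (k : C p) - k) by ring]
    exact AddValuation.map_le_add _ h ih

/-- The multiplicative lift commutes with polynomials modulo one. -/
theorem sharp_eval₂ {σ : Type*} (P : MvPolynomial σ ℕ) (z : σ → C p) (hz : ∀ i, 0 ≤ ord (z i)) :
    0 ≤ ord (P.eval₂ (Nat.castRingHom (C p)) z) ∧
      1 ≤ U.v (U.sharp (P.eval₂ (Nat.castRingHom (C p)) z) -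
        P.eval₂ (Nat.castRingHom L) (fun i => U.sharp (z i))) := by
  induction P using MvPolynomial.induction_on with
  | C k =>
    simp only [eq_natCast, MvPolynomial.eval₂_natCast]
    exact ⟨natCast_mem (OC p) k, sharp_natCast U k⟩
  | add P P' h h' =>
    simp only [MvPolynomial.eval₂_add]
    refine ⟨le_ord_add h.1 h'.1, ?_⟩
    have h3 := U.sharp_add _ _ h.1 h'.1
    rw [show ∀ s a b a' b' : L, s - (a' + b') = (s - a - b) + ((a - a') + (b - b')) by
      intros; ring]
    exact AddValuation.map_le_add _ h3 (AddValuation.map_le_add _ h.2 h'.2)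
  | mul_X P i h =>
    simp only [MvPolynomial.eval₂_mul, MvPolynomial.eval₂_X]
    refine ⟨by rw [ord_mul]; exact add_nonneg h.1 (hz i), ?_⟩
    rw [map_mul, ← sub_mul, AddValuation.map_mul, U.v_sharp]
    exact h.2.trans (le_add_of_nonneg_right (hz i))

theorem v_pow_p_sub {x y : L} (hx : 0 ≤ U.v x) (hy : 0 ≤ U.v y) (j : ℕ)
    (h : ((j : ℚ) + 1 : ℚ) ≤ U.v (x - y)) :
    (((j : ℚ) + 1 + 1 : ℚ) : WithTop ℚ) ≤ U.v (x ^ p - y ^ p) := by
  have hone : ((1 : ℚ) : WithTop ℚ) ≤ U.v (x - y) := le_trans (WithTop.coe_le_coe.2 (by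
    have := Nat.cast_nonneg (α := ℚ) j; linarith)) h
  have hpow : ∀ i, ((1 : ℚ) : WithTop ℚ) ≤ U.v (x ^ i - y ^ i) := by
    intro i
    induction i with
    | zero => simp
    | succ i ih =>
      rw [show x ^ (i + 1) - y ^ (i + 1) = (x ^ i - y ^ i) * x + y ^ i * (x - y) by ring]
      refine AddValuation.map_le_add _ ?_ ?_
      · rw [AddValuation.map_mul]; exact ih.trans (le_add_of_nonneg_right hx)
      · rw [AddValuation.map_mul, AddValuation.map_pow]
        exact hone.trans (le_add_of_nonneg_left (nsmul_nonneg hy i))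
  rw [← geom_sum₂_mul, AddValuation.map_mul, add_comm ((j : ℚ) + 1) 1, WithTop.coe_add]
  refine add_le_add ?_ h
  rw [show ∑ i ∈ Finset.range p, x ^ i * y ^ (p - 1 - i) =
    ∑ i ∈ Finset.range p, (x ^ i - y ^ i) * y ^ (p - 1 - i) + (p : L) * y ^ (p - 1) by
      rw [show (p : L) * y ^ (p - 1) = ∑ i ∈ Finset.range p, y ^ (p - 1) by simp,
        ← Finset.sum_add_distrib]
      refine Finset.sum_congr rfl fun i hi => ?_
      rw [Finset.mem_range] at hi
      rw [sub_mul, ← pow_add, show i + (p - 1 - i) = p - 1 by omega, sub_add_cancel]]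
  refine AddValuation.map_le_add _ (AddValuation.map_le_sum _ fun i _ => ?_) ?_
  · rw [AddValuation.map_mul, AddValuation.map_pow]
    exact (hpow i).trans (le_add_of_nonneg_right (nsmul_nonneg hy _))
  · rw [AddValuation.map_mul, v_p, AddValuation.map_pow]
    exact le_add_of_nonneg_right (nsmul_nonneg hy _)

theorem v_pow_p_pow_sub {x y : L} (hx : 0 ≤ U.v x) (hy : 0 ≤ U.v y) (h : 1 ≤ U.v (x - y))
    (j : ℕ) : (((j : ℚ) + 1 : ℚ) : WithTop ℚ) ≤ U.v (x ^ p ^ j - y ^ p ^ j) := by
  induction j with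
  | zero => simpa using h
  | succ j ih =>
    rw [pow_succ, pow_mul, pow_mul]
    push_cast
    exact v_pow_p_sub U (by rw [AddValuation.map_pow]; exact nsmul_nonneg hx _)
      (by rw [AddValuation.map_pow]; exact nsmul_nonneg hy _) j ih

variable (p) in
/-- The truncated logarithm of the Honda law of height `m`. -/
def fser (m M : ℕ) (x : L) : L :=
  ∑ i ∈ Finset.range (M + 1), (p : L) ^ (-(i : ℤ)) * x ^ p ^ (m * i)

theorem v_fser_sub (hm : 1 ≤ m) (M : ℕ) {x y : L} (hx : 0 ≤ U.v x) (hy : 0 ≤ U.v y)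
    (h : 1 ≤ U.v (x - y)) : 1 ≤ U.v (fser p m M x - fser p m M y) := by
  rw [fser, fser, ← Finset.sum_sub_distrib]
  refine AddValuation.map_le_sum _ fun i _ => ?_
  rw [← mul_sub, AddValuation.map_mul, v_p_zpow]
  refine le_trans ?_ (add_le_add le_rfl (v_pow_p_pow_sub U hx hy h (m * i)))
  rw [← WithTop.coe_add, ← WithTop.coe_one, WithTop.coe_le_coe]
  have : (i : ℚ) ≤ ((m * i : ℕ) : ℚ) := by exact_mod_cast Nat.le_mul_of_pos_left i (by omega)
  push_cast at this ⊢
  linarith

/-- Series agreeing below degree `D` have powers agreeing below degree `D`. -/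
theorem coeff_pow_congr {σ R : Type*} [CommRing R] {A B : MvPowerSeries σ R} {D : ℕ}
    (h : ∀ d : σ →₀ ℕ, d.degree < D → coeff d A = coeff d B) (q : ℕ) :
    ∀ d : σ →₀ ℕ, d.degree < D → coeff d (A ^ q) = coeff d (B ^ q) := by
  classical
  intro d hd
  obtain ⟨g, hg⟩ := sub_dvd_pow_sub_pow A B q
  rw [← sub_eq_zero, ← map_sub, hg, coeff_mul]
  refine Finset.sum_eq_zero fun x hx => ?_
  rw [Finset.HasAntidiagonal.mem_antidiagonal] at hx
  rw [map_sub, h x.1 (lt_of_le_of_lt (by rw [← hx, map_add]; exact Nat.le_add_right _ _) hd),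
    sub_self, zero_mul]

/-- The p-adic log series of the Honda law, at low degree. -/
theorem coeff_subst_log (hm : 1 ≤ m) {f : PowerSeries ℚ_[p]}
    (hf : ∀ i : ℕ, PowerSeries.coeff i f =
      ∑ j ∈ Finset.range (i + 1), if p ^ (j * m) = i then ((p : ℚ_[p]) ^ j)⁻¹ else 0)
    {g : MvPowerSeries (Fin 2) ℚ_[p]} (hg : constantCoeff g = 0) {M : ℕ} {d : Fin 2 →₀ ℕ}
    (hd : d.degree < p ^ (m * (M + 1))) :
    coeff d (PowerSeries.subst g f) =
      ∑ j ∈ Finset.range (M + 1), ((p : ℚ_[p]) ^ j)⁻¹ * coeff d (g ^ p ^ (m * j)) := by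
  classical
  have hinj : Function.Injective fun j : ℕ => p ^ (m * j) := fun a b h => by
    have := Nat.pow_right_injective hp.out.two_le h
    exact Nat.eq_of_mul_eq_mul_left (by omega) this
  have hco : ∀ j, PowerSeries.coeff (p ^ (m * j)) f = ((p : ℚ_[p]) ^ j)⁻¹ := by
    intro j
    rw [hf, Finset.sum_eq_single j]
    · rw [if_pos (by rw [mul_comm])]
    · intro b _ hb
      rw [if_neg]
      intro h
      rw [mul_comm b m] at h
      exact hb (hinj h)
    · intro h
      refine absurd (Finset.mem_range.2 ?_) h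
      have h1 : j ≤ m * j := Nat.le_mul_of_pos_left j (by omega)
      have h2 := Nat.lt_pow_self (n := m * j) hp.out.one_lt
      omega
  rw [PowerSeries.coeff_subst (PowerSeries.HasSubst.of_constantCoeff_zero hg),
    finsum_eq_sum_of_support_subset (s := (Finset.range (M + 1)).image fun j => p ^ (m * j)),
    Finset.sum_image fun a _ b _ h => hinj h]
  · exact Finset.sum_congr rfl fun j _ => by rw [hco, smul_eq_mul]
  · intro i hi
    rw [Function.mem_support] at hi
    have h1 : PowerSeries.coeff i f ≠ 0 := fun h => hi (by rw [h, zero_smul])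
    rw [hf] at h1
    obtain ⟨j, -, hj⟩ := Finset.exists_ne_zero_of_sum_ne_zero h1
    have hji : p ^ (j * m) = i := by by_contra h; exact hj (if_neg h)
    have hid : i ≤ d.degree := by
      by_contra hlt
      refine hi ?_
      rw [coeff_of_lt_order (lt_of_lt_of_le ?_ (le_order_pow_of_constantCoeff_eq_zero i hg)),
        smul_zero]
      exact_mod_cast not_le.1 hlt
    simp only [Finset.coe_image, Set.mem_image, Finset.mem_coe, Finset.mem_range]
    refine ⟨j, ?_, by rw [mul_comm]; exact hji⟩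
    have h2 := lt_of_le_of_lt hid hd
    rw [← hji, mul_comm, Nat.pow_lt_pow_iff_right hp.out.one_lt] at h2
    exact Nat.lt_of_mul_lt_mul_left h2

/-- The truncated logarithm is additive on the law, with an error of nonnegative valuation. -/
theorem v_fser_fadd (hm : 1 ≤ m) {G : FormalGroup (Kb p)} (hG : IsHondaKb p m G) {z w : C p}
    {ε : ℚ} (hε : 0 < ε) (hz : (ε : WithTop ℚ) ≤ ord z) (hw : (ε : WithTop ℚ) ≤ ord w)
    {M : ℕ} (hM : 1 ≤ M) (hD : (M : ℚ) ≤ ((p ^ (m * (M + 1)) : ℕ) : ℚ) * ε) :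
    0 ≤ U.v (fser p m M (U.sharp (fadd p HahnSeries.C G z w)) -
      fser p m M (U.sharp z) - fser p m M (U.sharp w)) := by
  classical
  obtain ⟨-, G₀, hG₀, f, hf, hlog⟩ := hG
  set D := p ^ (m * (M + 1)) with hDdef
  have hx : ∀ i, (ε : WithTop ℚ) ≤ ord (![z, w] i) := fun i => by fin_cases i <;> simpa
  have hx0 : ∀ i, 0 < ord (![z, w] i) := fun i => (WithTop.coe_pos.2 hε).trans_le (hx i)
  set T := (finite_exponents (σ := Fin 2) D).toFinset
  set k : (Fin 2 →₀ ℕ) → ℕ := fun d => PadicInt.appr (coeff d G₀.toPowerSeries) M with hk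
  have hspec : ∀ d, ∃ e : ℤ_[p],
      coeff d G₀.toPowerSeries = (k d : ℤ_[p]) + (p : ℤ_[p]) ^ M * e := fun d => by
    obtain ⟨e, he⟩ := Ideal.mem_span_singleton.1 (PadicInt.appr_spec M (coeff d G₀.toPowerSeries))
    exact ⟨e, by rw [← he, add_sub_cancel]⟩
  set P : MvPolynomial (Fin 2) ℕ := ∑ d ∈ T, MvPolynomial.monomial d (k d) with hP
  set P' : MvPowerSeries (Fin 2) (Kb p) := ∑ d ∈ T, monomial d (coeff d G.toPowerSeries) with hP'
  -- the polynomial approximates the sum
  have hPz : evalC p HahnSeries.C P' ![z, w] = P.eval₂ (Nat.castRingHom (C p)) ![z, w] := by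
    rw [hP', evalC_sum _ (fun d => intCoeff_residue _) hx0, hP, MvPolynomial.eval₂_sum]
    refine Finset.sum_congr rfl fun d _ => ?_
    rw [evalC_monomial, MvPolynomial.eval₂_monomial, Finsupp.prod_fintype _ _ fun i => pow_zero _]
    congr 1
    obtain ⟨e, he⟩ := hspec d
    rw [← hG₀, FormalGroup.map_toPowerSeries, coeff_map, he, map_add, map_mul, map_pow,
      map_natCast, map_natCast, CharP.cast_eq_zero (Kb p) p, zero_pow (by omega), zero_mul, add_zero,
      map_natCast, eq_natCast]
  have hr : 1 ≤ ord (fadd p HahnSeries.C G z w - P.eval₂ (Nat.castRingHom (C p)) ![z, w]) := by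
    rw [← hPz, fadd, ← evalC_sub (intCoeff_residue _) (intCoeff_residue _) hx0]
    refine le_trans ?_ (le_ord_evalC_of_degree (intCoeff_residue _) hε hx (N := D) fun d hd => ?_)
    · rw [← WithTop.coe_one, WithTop.coe_le_coe, nsmul_eq_mul]
      exact le_trans (by exact_mod_cast hM) hD
    · have hdT : d ∈ T := (Set.Finite.mem_toFinset _).mpr fun i =>
        (Finset.single_le_sum (fun j _ => Nat.zero_le (d j)) (Finset.mem_univ i)).trans_lt hd
      rw [map_sub, hP', map_sum, Finset.sum_eq_single d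
        (fun e _ he => coeff_monomial_ne he.symm _) (fun h => absurd hdT h), coeff_monomial_same,
        sub_self]
  obtain ⟨hP0, hP1⟩ := sharp_eval₂ U P ![z, w] fun i => (hx0 i).le
  set PC := P.eval₂ (Nat.castRingHom (C p)) ![z, w] with hPC
  set PL := P.eval₂ (Nat.castRingHom L) (fun i => U.sharp (![z, w] i)) with hPL
  have hfa : 0 ≤ ord (fadd p HahnSeries.C G z w) := ord_evalC_nonneg (intCoeff_residue _) hx0
  have hA : 1 ≤ U.v (U.sharp (fadd p HahnSeries.C G z w) - PL) := by
    have h1 := U.sharp_add PC (fadd p HahnSeries.C G z w - PC) hP0 (zero_le_one.trans hr)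
    rw [add_sub_cancel] at h1
    rw [show U.sharp (fadd p HahnSeries.C G z w) - PL =
      (U.sharp (fadd p HahnSeries.C G z w) - U.sharp PC -
        U.sharp (fadd p HahnSeries.C G z w - PC)) + U.sharp (fadd p HahnSeries.C G z w - PC) +
        (U.sharp PC - PL) by ring]
    exact AddValuation.map_le_add _
      (AddValuation.map_le_add _ h1 (by rw [U.v_sharp]; exact hr)) hP1
  have hfaL : 0 ≤ U.v (U.sharp (fadd p HahnSeries.C G z w)) := by rw [U.v_sharp]; exact hfa
  have hPL0 : 0 ≤ U.v PL := by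
    rw [show PL = U.sharp (fadd p HahnSeries.C G z w) -
      (U.sharp (fadd p HahnSeries.C G z w) - PL) by ring]
    exact AddValuation.map_le_sub _ hfaL (zero_le_one.trans hA)
  -- the integral polynomial
  set Pi : MvPolynomial (Fin 2) ℤ := MvPolynomial.map (Nat.castRingHom ℤ) P with hPi
  set Q : MvPolynomial (Fin 2) ℤ := ∑ i ∈ Finset.range (M + 1),
    MvPolynomial.C ((p : ℤ) ^ (M - i)) * (Pi ^ p ^ (m * i) -
      MvPolynomial.X 0 ^ p ^ (m * i) - MvPolynomial.X 1 ^ p ^ (m * i)) with hQ
  have hQL : Q.eval₂ (Int.castRingHom L) (fun i => U.sharp (![z, w] i)) =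
      (p : L) ^ M * (fser p m M PL - fser p m M (U.sharp z) - fser p m M (U.sharp w)) := by
    have hcomp : (Int.castRingHom L).comp (Nat.castRingHom ℤ) = Nat.castRingHom L :=
      Subsingleton.elim _ _
    rw [hQ, MvPolynomial.eval₂_sum, fser, fser, fser, ← Finset.sum_sub_distrib,
      ← Finset.sum_sub_distrib, Finset.mul_sum]
    refine Finset.sum_congr rfl fun i hi => ?_
    rw [Finset.mem_range] at hi
    simp only [MvPolynomial.eval₂_mul, MvPolynomial.eval₂_C, MvPolynomial.eval₂_sub,
      MvPolynomial.eval₂_pow, MvPolynomial.eval₂_X, hPi, MvPolynomial.eval₂_map, hcomp,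
      Matrix.cons_val_zero, Matrix.cons_val_one, ← hPL]
    rw [map_pow, map_natCast, ← zpow_natCast (p : L) M, ← zpow_natCast (p : L) (M - i),
      Nat.cast_sub (by omega), sub_eq_add_neg (M : ℤ), zpow_add₀ (p_ne_zero U)]
    ring
  -- its low coefficients are divisible
  have hlow : ∀ d : Fin 2 →₀ ℕ, d.degree < D → ((p : ℤ) ^ M) ∣ MvPolynomial.coeff d Q := by
    intro d hd
    set ρ : ℤ_[p] →+* ZMod (p ^ M) := PadicInt.toZModPow M
    set Qt : MvPowerSeries (Fin 2) ℤ_[p] := ∑ i ∈ Finset.range (M + 1),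
      MvPowerSeries.C ((p : ℤ_[p]) ^ (M - i)) * (G₀.toPowerSeries ^ p ^ (m * i) -
        X 0 ^ p ^ (m * i) - X 1 ^ p ^ (m * i)) with hQt
    have hzero : coeff d Qt = 0 := by
      apply Subtype.val_injective (p := fun x : ℚ_[p] => ‖x‖ ≤ 1)
      show PadicInt.Coe.ringHom (coeff d Qt) = ((0 : ℤ_[p]) : ℚ_[p])
      rw [PadicInt.coe_zero, hQt, map_sum, map_sum]
      have key : ∀ (a : MvPowerSeries (Fin 2) ℤ_[p]) (i : ℕ),
          PadicInt.Coe.ringHom (coeff d (a ^ i)) =
            coeff d (MvPowerSeries.map PadicInt.Coe.ringHom a ^ i) := fun a i => by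
        rw [← map_pow, coeff_map]
      simp only [coeff_C_mul]
      simp only [map_mul, map_sub, key, map_X]
      simp only [map_pow, map_natCast]
      have h := congrArg (coeff d) hlog
      rw [map_add, coeff_subst_log hm hf (FormalGroup.zero_constantCoeff _) hd,
        coeff_subst_log hm hf (constantCoeff_X _) hd,
        coeff_subst_log hm hf (constantCoeff_X _) hd, FormalGroup.map_toPowerSeries] at h
      rw [← sub_eq_zero, ← Finset.sum_add_distrib, ← Finset.sum_sub_distrib] at h
      have h' := congrArg (fun x => (p : ℚ_[p]) ^ M * x) h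
      simp only [mul_zero, Finset.mul_sum] at h'
      rw [← h']
      refine Finset.sum_congr rfl fun i hi => ?_
      rw [Finset.mem_range] at hi
      have hp0 : (p : ℚ_[p]) ≠ 0 := by exact_mod_cast hp.out.ne_zero
      rw [pow_sub₀ _ hp0 (by omega : i ≤ M)]
      ring
    have hPd : ∀ e : Fin 2 →₀ ℕ, e.degree < D →
        coeff e ((MvPolynomial.map (Int.castRingHom (ZMod (p ^ M))) Pi :
          MvPolynomial (Fin 2) (ZMod (p ^ M))) : MvPowerSeries (Fin 2) (ZMod (p ^ M))) =
          coeff e (MvPowerSeries.map ρ G₀.toPowerSeries) := by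
      intro e he
      have heT : e ∈ T := (Set.Finite.mem_toFinset _).mpr fun i =>
        (Finset.single_le_sum (fun j _ => Nat.zero_le (e j)) (Finset.mem_univ i)).trans_lt
          (by rwa [Finsupp.degree_eq_sum] at he)
      obtain ⟨a, ha⟩ := hspec e
      rw [MvPolynomial.coeff_coe, MvPolynomial.coeff_map, hPi, MvPolynomial.coeff_map, hP,
        MvPolynomial.coeff_sum, Finset.sum_eq_single e (fun b _ hb => by
          rw [MvPolynomial.coeff_monomial, if_neg hb]) (fun h => absurd heT h),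
        MvPolynomial.coeff_monomial, if_pos rfl, coeff_map, ha, map_add, map_mul, map_pow,
        map_natCast, map_natCast, eq_natCast, eq_intCast, Int.cast_natCast, ← Nat.cast_pow,
        ZMod.natCast_self, zero_mul, add_zero]
    rw [← Nat.cast_pow, ← ZMod.intCast_zmod_eq_zero_iff_dvd, ← eq_intCast (Int.castRingHom _),
      ← MvPolynomial.coeff_map, ← MvPolynomial.coeff_coe]
    have hQe : coeff d ((MvPolynomial.map (Int.castRingHom (ZMod (p ^ M))) Q :
        MvPolynomial (Fin 2) (ZMod (p ^ M))) : MvPowerSeries (Fin 2) (ZMod (p ^ M))) =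
        ρ (coeff d Qt) := by
      rw [hQ, hQt, map_sum, map_sum, map_sum, ← MvPolynomial.coeToMvPowerSeries.ringHom_apply,
        map_sum, map_sum]
      refine Finset.sum_congr rfl fun i _ => ?_
      rw [map_mul, MvPolynomial.map_C, map_mul, MvPolynomial.coeToMvPowerSeries.ringHom_apply,
        MvPolynomial.coe_C, coeff_C_mul, coeff_C_mul, map_mul]
      congr 1
      · simp
      · simp only [← coeff_map, map_sub, map_pow, map_X, MvPolynomial.map_X,
          MvPolynomial.coeToMvPowerSeries.ringHom_apply, MvPolynomial.coe_X]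
        rw [coeff_pow_congr hPd _ d hd]
    rw [hQe, hzero, map_zero]
  have hvQ : ((M : ℚ) : WithTop ℚ) ≤
      U.v (Q.eval₂ (Int.castRingHom L) (fun i => U.sharp (![z, w] i))) := by
    rw [MvPolynomial.eval₂_eq']
    refine AddValuation.map_le_sum _ fun d _ => ?_
    rw [AddValuation.map_mul, eq_intCast,
      show U.v (∏ i, U.sharp (![z, w] i) ^ d i) = ord (∏ i, ![z, w] i ^ d i) by
        rw [← U.v_sharp, map_prod U.sharp]; simp only [map_pow]]
    by_cases hdd : d.degree < D
    · obtain ⟨c, hc⟩ := hlow d hdd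
      rw [hc, Int.cast_mul, AddValuation.map_mul, Int.cast_pow, Int.cast_natCast, v_p_pow]
      exact (le_add_of_nonneg_right (v_intCast_nonneg U c)).trans (le_add_of_nonneg_right
        ((OC p).prod_mem fun i _ => (OC p).pow_mem (hx0 i).le _))
    · refine le_trans ?_ (le_add_of_nonneg_left (v_intCast_nonneg U _))
      refine le_trans (WithTop.coe_le_coe.2 ?_) (le_ord_prod_pow hx d)
      rw [nsmul_eq_mul, ← Finsupp.degree_eq_sum]
      exact hD.trans (mul_le_mul_of_nonneg_right (by exact_mod_cast not_lt.1 hdd) hε.le)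
  rw [hQL, AddValuation.map_mul, v_p_pow] at hvQ
  rw [show fser p m M (U.sharp (fadd p HahnSeries.C G z w)) - fser p m M (U.sharp z) -
    fser p m M (U.sharp w) = (fser p m M (U.sharp (fadd p HahnSeries.C G z w)) - fser p m M PL) +
      (fser p m M PL - fser p m M (U.sharp z) - fser p m M (U.sharp w)) by ring]
  refine AddValuation.map_le_add _ (zero_le_one.trans (v_fser_sub U hm M hfaL hPL0 hA)) ?_
  revert hvQ
  generalize U.v (fser p m M PL - fser p m M (U.sharp z) - fser p m M (U.sharp w)) = e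
  intro h
  cases e with
  | top => exact le_top
  | coe q =>
    rw [← WithTop.coe_add, WithTop.coe_le_coe] at h
    exact WithTop.coe_nonneg.2 (by linarith)

end Vale.Agent.P217.Sharp
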