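import Vale.Agent.P217.Sharp.Ring
import Vale.Agent.P217.Iface

/-!
P217, module M5: the fraction field of the untilt ring is an untilt in the sense of `Iface`.
-/

open HahnSeries

noncomputable section

namespace Vale.Agent.P217.Sharp

variable {p : ℕ} [Fact p.Prime]

variable (p) in
/-- The field of fractions. -/
abbrev LS : Type := FractionRing (UR p)

theorem val_eq_top {x : UR p} : val p x = ⊤ ↔ x = 0 := by
  refine ⟨fun h => ?_, fun h => by simp [h]⟩
  obtain ⟨z, u, hu, rfl⟩ := exists_eq_sharp_mul p x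
  rw [val_apply, val0_sharp_mul p z hu] at h
  have : z = 0 := by_contra fun hz => coe_v_ne_top hz h
  simp [this]

theorem le_val_iff_dvd (j : ℕ) (x : UR p) :
    ((j : ℚ) : WithTop ℚ) ≤ val p x ↔ (p : UR p) ^ j ∣ x := by
  rw [← sharp_pi, ← map_pow, ← le_val0_iff p _ (pow_ne_zero _ pi_ne_zero), val_apply]
  push_cast
  rw [AddValuation.map_pow, v_pi, ← WithTop.coe_nsmul, nsmul_one]
  rfl

variable (p) in
/-- The valuation of the ring, multiplicatively. -/
def valV : Valuation (UR p) (Multiplicative (WithTop ℚ)ᵒᵈ) := AddValuation.toValuation (val p)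

theorem valV_supp : nonZeroDivisors (UR p) ≤ (valV p).supp.primeCompl :=
  fun _x hx h => nonZeroDivisors.ne_zero hx (val_eq_top.1 h)

variable (p) in
/-- The valuation on the field of fractions. -/
def vL : AddValuation (LS p) (WithTop ℚ) :=
  AddValuation.ofValuation (Valuation.extendToLocalization (valV p) valV_supp (LS p))

theorem vL_map (x : UR p) : vL p (algebraMap _ _ x) = val p x :=
  (valV p).extendToLocalization_apply_map_apply valV_supp (LS p) x

theorem map_inj {x y : UR p} : algebraMap (UR p) (LS p) x = algebraMap _ _ y ↔ x = y :=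
  (IsFractionRing.injective (UR p) (LS p)).eq_iff

theorem exists_shift (a : C p) : ∃ q : ℚ, ∃ hq : 0 ≤ q, 0 ≤ vC (a * tpow p q) := by
  rcases eq_or_ne a 0 with rfl | ha
  · exact ⟨0, le_rfl, by simp⟩
  refine ⟨max 0 (-a.order), le_max_left _ _, ?_⟩
  rw [AddValuation.map_mul, addVal_apply_of_ne ha, tpow, v_single, ← WithTop.coe_add]
  exact WithTop.coe_le_coe.2 (by have := le_max_right 0 (-a.order); linarith)

theorem tp_ne_zero (q : ℚ) (hq : 0 ≤ q) : (tp q hq : OC p) ≠ 0 := fun h =>
  HahnSeries.single_ne_zero (a := q) (one_ne_zero (α := Kb p)) (congrArg Subtype.val h)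

variable (p) in
/-- The multiplicative lift of `C p`. -/
def sharpFun (a : C p) : LS p :=
  algebraMap _ _ (sharp p ⟨a * tpow p (exists_shift a).choose,
      mem_OC_v.2 (exists_shift a).choose_spec.2⟩) /
    algebraMap _ _ (sharp p (tp (exists_shift a).choose (exists_shift a).choose_spec.1))

theorem map_sharp_ne_zero {d : OC p} (hd : d ≠ 0) :
    algebraMap (UR p) (LS p) (sharp p d) ≠ 0 := by
  rw [ne_eq, ← map_zero (algebraMap (UR p) (LS p)), map_inj]
  exact fun h => hd (sharp_eq_zero p h)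

theorem sharpFun_eq {a : C p} {d e : OC p} (hd : d ≠ 0) (h : a * (d : C p) = e) :
    sharpFun p a = algebraMap _ _ (sharp p e) / algebraMap _ _ (sharp p d) := by
  rw [sharpFun, div_eq_div_iff (map_sharp_ne_zero (tp_ne_zero _ _)) (map_sharp_ne_zero hd),
    ← map_mul, ← map_mul, ← map_mul, ← map_mul]
  congr 2
  apply Subtype.ext
  show a * tpow p (exists_shift a).choose * (d : C p) =
    (e : C p) * HahnSeries.single (exists_shift a).choose 1
  rw [← h, tpow]
  ring

theorem sharpFun_coe (d : OC p) : sharpFun p (d : C p) = algebraMap _ _ (sharp p d) := by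
  rw [sharpFun_eq (d := 1) (e := d) one_ne_zero (by simp)]
  simp

theorem sharpFun_mul (a b : C p) : sharpFun p (a * b) = sharpFun p a * sharpFun p b := by
  obtain ⟨q, hq, ha⟩ := exists_shift a
  obtain ⟨q', hq', hb⟩ := exists_shift b
  rw [sharpFun_eq (a := a) (e := ⟨_, mem_OC_v.2 ha⟩) (tp_ne_zero q hq) rfl,
    sharpFun_eq (a := b) (e := ⟨_, mem_OC_v.2 hb⟩) (tp_ne_zero q' hq') rfl,
    sharpFun_eq (a := a * b) (d := tp q hq * tp q' hq')
      (e := ⟨_, mem_OC_v.2 ha⟩ * ⟨_, mem_OC_v.2 hb⟩)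
      (mul_ne_zero (tp_ne_zero q hq) (tp_ne_zero q' hq'))
      (by show a * b * (tpow p q * tpow p q') = a * tpow p q * (b * tpow p q'); ring)]
  rw [div_mul_div_comm, ← map_mul, ← map_mul, ← map_mul, ← map_mul]

variable (p) in
/-- The multiplicative lift, bundled. -/
def sharpL : C p →* LS p where
  toFun := sharpFun p
  map_one' := by
    simpa using sharpFun_coe (1 : OC p)
  map_mul' := sharpFun_mul

theorem vL_sharpL (a : C p) : vL p (sharpL p a) = vC a := by
  obtain ⟨q, hq, ha⟩ := exists_shift a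
  show vL p (sharpFun p a) = _
  rw [sharpFun_eq (a := a) (e := ⟨_, mem_OC_v.2 ha⟩) (tp_ne_zero q hq) rfl, AddValuation.map_div,
    vL_map, vL_map, val_sharp, val_sharp]
  show vC (a * tpow p q) - vC (tpow p q) = _
  rw [AddValuation.map_mul, tpow, v_single]
  rcases eq_or_ne (vC a) ⊤ with h | h
  · simp [h]
  · lift vC a to ℚ using h with c
    rw [← WithTop.coe_add, ← WithTop.LinearOrderedAddCommGroup.coe_sub, add_sub_cancel_right]

/-- Every nonzero element is a lift times a quotient of units. -/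
theorem exists_eq {y : LS p} (hy : y ≠ 0) : ∃ (a : C p) (u u' : UR p),
    IsUnit u ∧ IsUnit u' ∧ y = sharpL p a * (algebraMap _ _ u / algebraMap _ _ u') ∧
    vC a = vL p y := by
  obtain ⟨x, x', hx', rfl⟩ := IsFractionRing.div_surjective (A := UR p) y
  obtain ⟨z, u, hu, rfl⟩ := exists_eq_sharp_mul p x
  obtain ⟨z', u', hu', rfl⟩ := exists_eq_sharp_mul p x'
  have hz' : z' ≠ 0 := fun h => nonZeroDivisors.ne_zero hx' (by simp [h])
  have hz'C : (z' : C p) ≠ 0 := fun h => hz' (Subtype.ext h)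
  have hs : sharpL p ((z : C p) / z') =
      algebraMap _ _ (sharp p z) / algebraMap _ _ (sharp p z') :=
    sharpFun_eq hz' (div_mul_cancel₀ _ hz'C)
  have he : algebraMap (UR p) (LS p) (sharp p z * u) / algebraMap _ _ (sharp p z' * u') =
      sharpL p ((z : C p) / z') * (algebraMap _ _ u / algebraMap _ _ u') := by
    rw [hs, map_mul, map_mul, div_mul_div_comm]
  refine ⟨_, u, u', hu, hu', he, ?_⟩
  rw [he, AddValuation.map_mul, vL_sharpL, AddValuation.map_div, AddValuation.map_div,
    vL_map, vL_map]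
  have h0 : ∀ {w : UR p}, IsUnit w → val p w = 0 := fun {w} hw => by
    simpa [val_apply] using val0_sharp_mul p (1 : OC p) hw
  simp [h0 hu, h0 hu']

theorem exists_of_nonneg {y : LS p} (hy : 0 ≤ vL p y) : ∃ x, algebraMap (UR p) (LS p) x = y := by
  rcases eq_or_ne y 0 with rfl | h0
  · exact ⟨0, map_zero _⟩
  obtain ⟨a, u, u', hu, hu', he, hv⟩ := exists_eq h0
  obtain ⟨w, hw⟩ := hu'.exists_right_inv
  have hm : a ∈ OC p := mem_OC_v.2 (by rw [hv]; exact hy)
  refine ⟨sharp p ⟨a, hm⟩ * (u * w), ?_⟩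
  rw [map_mul, map_mul, he, ← sharpFun_coe]
  congr 1
  rw [eq_div_iff ((hu'.map _).ne_zero), mul_assoc, ← map_mul, mul_comm w, hw, map_one, mul_one]

theorem vL_p : vL p (p : LS p) = (1 : ℚ) := by
  rw [← map_natCast (algebraMap (UR p) (LS p)), vL_map, val_p]

theorem vL_p_pow (m : ℕ) : vL p ((p : LS p) ^ m) = ((m : ℚ) : WithTop ℚ) := by
  rw [AddValuation.map_pow, vL_p, ← WithTop.coe_nsmul, nsmul_one]

theorem vL_sum_telescope {s : ℕ → LS p} {B : WithTop ℚ} {N : ℕ}
    (h : ∀ i ≥ N, B ≤ vL p (s (i + 1) - s i)) : ∀ i ≥ N, B ≤ vL p (s i - s N) := by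
  intro i hi
  induction i, hi using Nat.le_induction with
  | base => simp
  | succ i hi ih =>
    rw [show s (i + 1) - s N = (s (i + 1) - s i) + (s i - s N) by ring]
    exact AddValuation.map_le_add _ (h i hi) ih

theorem vL_complete (s : ℕ → LS p)
    (hs : ∀ B : ℚ, ∃ N, ∀ i ≥ N, (B : WithTop ℚ) < vL p (s (i + 1) - s i)) :
    ∃ y, ∀ B : ℚ, ∃ N, ∀ i ≥ N, (B : WithTop ℚ) < vL p (y - s i) := by
  choose N hN using fun j : ℕ => hs j
  set M : ℕ → ℕ := fun j => ∑ i ∈ Finset.range (j + 1), N i with hM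
  have hMN : ∀ j, ∀ i ≥ M j, ((j : ℚ) : WithTop ℚ) ≤ vL p (s (i + 1) - s i) := fun j i hi =>
    (hN j i ((Finset.single_le_sum (fun a _ => Nat.zero_le (N a))
      (Finset.self_mem_range_succ j)).trans hi)).le
  have hmono : ∀ j, M j ≤ M (j + 1) := fun j => by
    simp only [hM]; rw [Finset.sum_range_succ _ (j + 1)]; omega
  have htel : ∀ j, ∀ i ≥ M j, ((j : ℚ) : WithTop ℚ) ≤ vL p (s i - s (M j)) := fun j =>
    vL_sum_telescope (hMN j)
  -- a common denominator
  obtain ⟨m, hm⟩ : ∃ m : ℕ, 0 ≤ vL p ((p : LS p) ^ m * s (M 0)) := by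
    rcases eq_or_ne (vL p (s (M 0))) ⊤ with h | h
    · exact ⟨0, by simp [h]⟩
    · obtain ⟨c, hc⟩ := WithTop.ne_top_iff_exists.1 h
      obtain ⟨m, hm⟩ := exists_nat_ge (-c)
      refine ⟨m, ?_⟩
      rw [AddValuation.map_mul, vL_p_pow, ← hc, ← WithTop.coe_add]
      exact WithTop.coe_le_coe.2 (by linarith)
  have hnn : ∀ j, 0 ≤ vL p ((p : LS p) ^ m * s (M j)) := by
    intro j
    rw [show (p : LS p) ^ m * s (M j) = (p : LS p) ^ m * s (M 0) +
      (p : LS p) ^ m * (s (M j) - s (M 0)) by ring]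
    refine AddValuation.map_le_add _ hm ?_
    rw [AddValuation.map_mul, vL_p_pow]
    refine add_nonneg (by exact_mod_cast (Nat.zero_le m)) (le_trans ?_ (htel 0 (M j) ?_))
    · simp
    · exact monotone_nat_of_le_succ hmono (Nat.zero_le j)
  choose x hx using fun j => exists_of_nonneg (hnn j)
  obtain ⟨X, hX⟩ := exists_lim p (x := x) fun j => by
    rw [← le_val_iff_dvd, ← vL_map, map_sub, hx, hx, ← mul_sub, AddValuation.map_mul, vL_p_pow]
    exact le_add_of_nonneg_of_le (by exact_mod_cast (Nat.zero_le m)) (htel j _ (hmono j))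
  refine ⟨algebraMap _ _ X / (p : LS p) ^ m, fun B => ?_⟩
  obtain ⟨j, hj⟩ := exists_nat_gt (B + m)
  refine ⟨M j, fun i hi => ?_⟩
  have hp0 : (p : LS p) ^ m ≠ 0 := fun h => by
    have := vL_p_pow (p := p) m
    simp [h] at this
  have h1 : ((j : ℚ) : WithTop ℚ) ≤ vL p (algebraMap _ _ X - (p : LS p) ^ m * s i) := by
    rw [show algebraMap _ _ X - (p : LS p) ^ m * s i =
      algebraMap (UR p) (LS p) (X - x j) - (p : LS p) ^ m * (s i - s (M j)) by
        rw [map_sub, hx]; ring]
    refine AddValuation.map_le_sub _ ?_ ?_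
    · rw [vL_map]
      exact (le_val_iff_dvd j _).2 (hX j)
    · rw [AddValuation.map_mul, vL_p_pow]
      exact le_add_of_nonneg_of_le (by exact_mod_cast (Nat.zero_le m)) (htel j i hi)
  rw [show algebraMap _ _ X - (p : LS p) ^ m * s i =
    (p : LS p) ^ m * (algebraMap _ _ X / (p : LS p) ^ m - s i) by field_simp,
    AddValuation.map_mul, vL_p_pow] at h1
  by_contra hlt
  rw [not_lt] at hlt
  have := h1.trans (add_le_add le_rfl hlt)
  rw [← WithTop.coe_add, WithTop.coe_le_coe] at this
  linarith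

/-- The untilt of `C p`. -/
def untilt (p : ℕ) [Fact p.Prime] : Untilt p (LS p) where
  v := vL p
  sharp := sharpL p
  sharp_zero := by
    show sharpFun p 0 = 0
    simpa using sharpFun_coe (0 : OC p)
  v_sharp a := by rw [vL_sharpL, addVal_apply]
  sharp_add a b ha hb := by
    have hs : ∀ (c : C p) (hc : c ∈ OC p), sharpL p c = algebraMap _ _ (sharp p ⟨c, hc⟩) :=
      fun c hc => sharpFun_coe ⟨c, hc⟩
    rw [hs a ha, hs b hb, hs (a + b) ((OC p).add_mem ha hb), ← map_sub, ← map_sub, vL_map]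
    obtain ⟨c, hc⟩ := (p_dvd_iff p (WittVector.teichmuller p (⟨a, ha⟩ + ⟨b, hb⟩ : OC p) -
      WittVector.teichmuller p (⟨a, ha⟩ : OC p) -
      WittVector.teichmuller p (⟨b, hb⟩ : OC p))).2 (by
        rw [map_sub, map_sub, constantCoeff_teich, constantCoeff_teich, constantCoeff_teich]
        abel)
    have := (le_val_iff_dvd 1 (sharp p (⟨a, ha⟩ + ⟨b, hb⟩) - sharp p ⟨a, ha⟩ - sharp p ⟨b, hb⟩)).2
      ⟨mk p c, by rw [pow_one, ← map_natCast (mk p), ← map_mul, ← hc]; simp [mk_teich]⟩
    exact this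
  p_eq := by
    show (p : LS p) = sharpFun p ((ϖ : OC p) : C p)
    rw [sharpFun_coe, sharp_pi, map_natCast]
  approx y hy := by
    obtain ⟨a, u, u', hu, hu', he, hv⟩ := exists_eq hy
    have hu0 := (isUnit_iff_residue p).1 hu
    have hu'0 := (isUnit_iff_residue p).1 hu'
    set r := residue p u / residue p u'
    have hr : r ≠ 0 := div_ne_zero hu0 hu'0
    have hC : (HahnSeries.C r : C p) ∈ OC p := by
      rw [mem_OC_v, addVal_apply, HahnSeries.C_apply, orderTop_single hr]
      simp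
    have hCv : vC (HahnSeries.C r : C p) = 0 := by
      rw [addVal_apply, HahnSeries.C_apply, orderTop_single hr]
      simp
    refine ⟨a * HahnSeries.C r, ?_, ?_⟩
    · show ord _ = vL p y
      have : ord (a * HahnSeries.C r) = vC (a * HahnSeries.C r) := addVal_apply.symm
      rw [this, AddValuation.map_mul, hCv, add_zero, hv]
    · have hd : y - sharpL p (a * HahnSeries.C r) = sharpL p a *
          (algebraMap _ _ (u - sharp p ⟨_, hC⟩ * u') / algebraMap _ _ u') := by
        rw [map_mul, he, ← mul_sub, map_sub, map_mul, ← sharpFun_coe, sub_div,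
          mul_div_cancel_right₀ _ (hu'.map _).ne_zero]
        rfl
      show vL p y < vL p (y - sharpL p (a * HahnSeries.C r))
      rw [hd, AddValuation.map_mul, vL_sharpL, hv, AddValuation.map_div, vL_map, vL_map]
      have h1 : val p u' = 0 := by simpa [val_apply] using val0_sharp_mul p (1 : OC p) hu'
      have h2 : 0 < val p (u - sharp p ⟨_, hC⟩ * u') := by
        rw [val_pos_iff, map_sub, map_mul, residue_sharp]
        show residue p u - (HahnSeries.C r : C p).coeff 0 * residue p u' = 0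
        simp [HahnSeries.C_apply, r, hu'0]
      rw [h1]
      obtain ⟨c, hc⟩ := WithTop.ne_top_iff_exists.1 ((AddValuation.ne_top_iff (vL p)).2 hy)
      rw [← hc]
      rcases eq_or_ne (val p (u - sharp p ⟨_, hC⟩ * u')) ⊤ with h | h
      · rw [h, sub_zero, add_top]
        exact WithTop.coe_lt_top c
      · obtain ⟨e, he'⟩ := WithTop.ne_top_iff_exists.1 h
        rw [← he'] at h2 ⊢
        have : (0 : ℚ) < e := WithTop.coe_lt_coe.1 h2
        simp only [sub_zero, ← WithTop.coe_add, WithTop.coe_lt_coe]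
        linarith
  complete := vL_complete

end Vale.Agent.P217.Sharp

namespace Vale.Agent.P217

/-- An untilt exists. -/
theorem untiltStatement (p : ℕ) [Fact p.Prime] : UntiltStatement p :=
  ⟨Sharp.LS p, inferInstance, ⟨Sharp.untilt p⟩⟩

end Vale.Agent.P217
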