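import Vale.Agent.P217.Eval
import Vale.Agent.P217.Iface

/-!
P217, module M5: elementary facts about an untilt and the series defining `L_m`.
-/

noncomputable section

namespace Vale.Agent.P217.Sharp

variable {p : ℕ} [hp : Fact p.Prime] {L : Type} [Field L] (U : Untilt p L) {m : ℕ}

theorem v_p : U.v (p : L) = ((1 : ℚ) : WithTop ℚ) := by rw [U.p_eq, U.v_sharp, ord_tpow]

include U in
theorem p_ne_zero : (p : L) ≠ 0 := fun h => by simpa [h] using v_p U

theorem v_p_pow (k : ℕ) : U.v ((p : L) ^ k) = ((k : ℚ) : WithTop ℚ) := by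
  rw [AddValuation.map_pow, v_p, ← WithTop.coe_nsmul, nsmul_one]

theorem v_p_zpow (k : ℤ) : U.v ((p : L) ^ k) = ((k : ℚ) : WithTop ℚ) := by
  cases k with
  | ofNat k => simpa using v_p_pow U k
  | negSucc k =>
    rw [zpow_negSucc, AddValuation.map_inv, v_p_pow, ← WithTop.LinearOrderedAddCommGroup.coe_neg]
    push_cast
    ring_nf

theorem v_natCast_nonneg (k : ℕ) : 0 ≤ U.v (k : L) := by
  induction k with
  | zero => simp
  | succ k ih =>
    push_cast
    exact AddValuation.map_le_add _ ih (by simp)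

theorem v_intCast_nonneg (k : ℤ) : 0 ≤ U.v (k : L) := by
  cases k with
  | ofNat k => simpa using v_natCast_nonneg U k
  | negSucc k =>
    rw [Int.cast_negSucc, AddValuation.map_neg]
    exact v_natCast_nonneg U _

theorem eq_of_forall_lt {y y' : L} (h : ∀ B : ℚ, (B : WithTop ℚ) < U.v (y - y')) : y = y' := by
  by_contra hne
  obtain ⟨q, hq⟩ := WithTop.ne_top_iff_exists.1
    ((AddValuation.ne_top_iff U.v).2 (sub_ne_zero.2 hne))
  exact lt_irrefl _ (hq ▸ h q)

theorem le_ord_powZ {x : C p} {a : ℚ} (h : (a : WithTop ℚ) ≤ ord x) (j : ℤ) :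
    (((p : ℚ) ^ j * a : ℚ) : WithTop ℚ) ≤ ord (powZ p x j) := by
  by_cases hx : x = 0
  · simp [hx, powZ_zero_left]
  obtain ⟨q, hq⟩ := WithTop.ne_top_iff_exists.mp (mt ord_eq_top.mp hx)
  rw [← hq, WithTop.coe_le_coe] at h
  rw [ord_powZ hq.symm, WithTop.coe_le_coe]
  exact mul_le_mul_of_nonneg_left h (zpow_nonneg (Nat.cast_nonneg p) j)

theorem exists_pos_le_ord {x : C p} (h : 0 < ord x) :
    ∃ a : ℚ, 0 < a ∧ (a : WithTop ℚ) ≤ ord x := by
  by_cases hx : x = 0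
  · exact ⟨1, one_pos, by simp [hx]⟩
  obtain ⟨q, hq⟩ := WithTop.ne_top_iff_exists.mp (mt ord_eq_top.mp hx)
  exact ⟨q, WithTop.coe_pos.1 (hq ▸ h), hq.le⟩

theorem two_le_pow (hm : 1 ≤ m) : (2 : ℚ) ≤ (p : ℚ) ^ m := by
  exact_mod_cast hp.out.two_le.trans (Nat.le_self_pow (by omega) p)

/-- An exponential beats a linear function. -/
theorem exists_growth (hm : 1 ≤ m) {a : ℚ} (ha : 0 < a) (B : ℚ) :
    ∃ N₀ : ℕ, ∀ N ≥ N₀, B + (N : ℚ) < a * ((p : ℚ) ^ m) ^ N := by
  have hsq : ∀ N : ℕ, N ^ 2 ≤ 2 * 2 ^ N := by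
    intro N
    induction N with
    | zero => simp
    | succ N ih => have := Nat.lt_two_pow_self (n := N); ring_nf; ring_nf at ih; omega
  obtain ⟨N₀, hN₀⟩ := exists_nat_gt (2 * (1 + |B|) / a)
  refine ⟨N₀ + 1, fun N hN => ?_⟩
  have h1 : (N : ℚ) ^ 2 ≤ 2 * ((p : ℚ) ^ m) ^ N :=
    le_trans (show (N : ℚ) ^ 2 ≤ 2 * 2 ^ N by exact_mod_cast hsq N)
      (mul_le_mul_of_nonneg_left (pow_le_pow_left₀ two_pos.le (two_le_pow hm) N) two_pos.le)
  have h2 : (N₀ : ℚ) + 1 ≤ N := by exact_mod_cast hN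
  rw [div_lt_iff₀ ha] at hN₀
  have h3 : 2 * (1 + |B|) < a * N := by nlinarith
  nlinarith [le_abs_self B, abs_nonneg B, Nat.cast_nonneg (α := ℚ) N₀,
    mul_le_mul_of_nonneg_left h1 ha.le, mul_le_mul_of_nonneg_right h3.le (Nat.cast_nonneg N)]

/-- The term of index `k` of `L_m(V)`. -/
def term (m : ℕ) (V : C p) (k : ℤ) : L := (p : L) ^ (-k) * U.sharp (powZ p V ((m : ℤ) * k))

/-- The symmetric partial sum of `L_m(V)`. -/
def part (m : ℕ) (V : C p) (N : ℕ) : L := ∑ k ∈ Finset.Icc (-(N : ℤ)) N, term U m V k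

theorem v_term (V : C p) (k : ℤ) :
    U.v (term U m V k) = ((-k : ℤ) : ℚ) + ord (powZ p V ((m : ℤ) * k)) := by
  rw [term, AddValuation.map_mul, v_p_zpow, U.v_sharp]

theorem part_succ (V : C p) (N : ℕ) :
    part U m V (N + 1) =
      part U m V N + (term U m V ((N : ℤ) + 1) + term U m V (-((N : ℤ) + 1))) := by
  rw [part, show Finset.Icc (-((N + 1 : ℕ) : ℤ)) ((N + 1 : ℕ) : ℤ) =
    insert ((N : ℤ) + 1) (insert (-((N : ℤ) + 1)) (Finset.Icc (-(N : ℤ)) N)) by
      ext k; simp only [Finset.mem_Icc, Finset.mem_insert]; omega,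
    Finset.sum_insert (by simp only [Finset.mem_Icc, Finset.mem_insert]; omega),
    Finset.sum_insert (by simp only [Finset.mem_Icc]; omega), part]
  ring

/-- The terms of negative index tend to zero. -/
theorem exists_le_v_term_neg (m : ℕ) (V : C p) :
    ∃ c : ℚ, ∀ N : ℕ, (((N : ℚ) + c : ℚ) : WithTop ℚ) ≤ U.v (term U m V (-(N : ℤ))) := by
  obtain ⟨a, ha⟩ : ∃ a : ℚ, (a : WithTop ℚ) ≤ ord V := by
    by_cases hV : V = 0
    · exact ⟨0, by simp [hV]⟩
    · obtain ⟨q, hq⟩ := WithTop.ne_top_iff_exists.mp (mt ord_eq_top.mp hV)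
      exact ⟨q, hq.le⟩
  refine ⟨min 0 a, fun N => ?_⟩
  rw [v_term, WithTop.coe_add]
  refine add_le_add (by simp) ((WithTop.coe_le_coe.2 ?_).trans (le_ord_powZ ha _))
  have hx0 : 0 ≤ (p : ℚ) ^ ((m : ℤ) * -(N : ℤ)) := zpow_nonneg (Nat.cast_nonneg p) _
  have hx1 : (p : ℚ) ^ ((m : ℤ) * -(N : ℤ)) ≤ 1 :=
    zpow_le_one_of_nonpos₀ (by exact_mod_cast hp.out.one_le)
      (by simp only [mul_neg, Left.neg_nonpos_iff]; positivity)
  rcases le_total 0 a with h | h
  · exact (min_le_left _ _).trans (mul_nonneg hx0 h)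
  · exact (min_le_right _ _).trans (by nlinarith)

theorem eventually_v_term_neg (m : ℕ) (V : C p) (B : ℚ) :
    ∃ N₀ : ℕ, ∀ N ≥ N₀, (B : WithTop ℚ) < U.v (term U m V (-(N : ℤ))) := by
  obtain ⟨c, hc⟩ := exists_le_v_term_neg U m V
  obtain ⟨N₀, hN₀⟩ := exists_nat_gt (B - c)
  refine ⟨N₀, fun N hN => lt_of_lt_of_le (WithTop.coe_lt_coe.2 ?_) (hc N)⟩
  have : (N₀ : ℚ) ≤ N := by exact_mod_cast hN
  linarith

/-- If the series converges, the terms of positive index tend to zero. -/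
theorem eventually_v_term_pos {V : C p} {y : L} (h : U.IsLn m V y) (B : ℚ) :
    ∃ N₀ : ℕ, ∀ N ≥ N₀, (B : WithTop ℚ) < U.v (term U m V ((N : ℤ) + 1)) := by
  obtain ⟨N₁, hN₁⟩ := h B
  obtain ⟨N₂, hN₂⟩ := eventually_v_term_neg U m V B
  refine ⟨max N₁ N₂, fun N hN => ?_⟩
  have h3 := hN₂ (N + 1) (by omega)
  push_cast at h3
  rw [show term U m V ((N : ℤ) + 1) =
    (y - part U m V N) - (y - part U m V (N + 1)) - term U m V (-((N : ℤ) + 1)) by
      rw [part_succ]; ring]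
  exact ((lt_min ((lt_min (hN₁ N (by omega)) (hN₁ (N + 1) (by omega))).trans_le
    (AddValuation.map_sub _ _ _)) h3).trans_le (AddValuation.map_sub _ _ _))

theorem exists_isLn (hm : 1 ≤ m) {V : C p} (hV : 0 < ord V) : ∃ y, U.IsLn m V y := by
  obtain ⟨a, ha0, ha⟩ := exists_pos_le_ord hV
  refine U.complete (part U m V) fun B => ?_
  obtain ⟨N₁, hN₁⟩ := eventually_v_term_neg U m V B
  obtain ⟨N₂, hN₂⟩ := exists_growth (p := p) hm ha0 B
  refine ⟨max N₁ N₂, fun i hi => ?_⟩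
  rw [part_succ, add_sub_cancel_left]
  have h1 := hN₁ (i + 1) (by omega)
  push_cast at h1
  refine (lt_min ?_ h1).trans_le (AddValuation.map_add _ _ _)
  rw [v_term]
  have h2 := hN₂ (i + 1) (by omega)
  refine lt_of_lt_of_le ?_ (add_le_add le_rfl (le_ord_powZ ha _))
  rw [← WithTop.coe_add, WithTop.coe_lt_coe,
    show ((m : ℤ) * ((i : ℤ) + 1)) = ((m * (i + 1) : ℕ) : ℤ) by push_cast; ring, zpow_natCast,
    pow_mul]
  push_cast at h2 ⊢
  linarith

theorem isLn_unique {V : C p} {y y' : L} (h : U.IsLn m V y) (h' : U.IsLn m V y') : y = y' := by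
  refine eq_of_forall_lt U fun B => ?_
  obtain ⟨N, hN⟩ := h B
  obtain ⟨N', hN'⟩ := h' B
  rw [show y - y' = (y - part U m V (max N N')) - (y' - part U m V (max N N')) by ring]
  exact (lt_min (hN _ (le_max_left _ _)) (hN' _ (le_max_right _ _))).trans_le
    (AddValuation.map_sub _ _ _)

theorem isLn_pow {V : C p} {y : L} (h : U.IsLn m V y) :
    U.IsLn m (V ^ p ^ m) ((p : L) * y) := by
  intro B
  obtain ⟨N₁, hN₁⟩ := h B
  obtain ⟨N₂, hN₂⟩ := eventually_v_term_neg U m V B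
  obtain ⟨N₃, hN₃⟩ := eventually_v_term_pos U h B
  refine ⟨max N₁ (max N₂ N₃), fun N hN => ?_⟩
  have hterm : ∀ k : ℤ, term U m (V ^ p ^ m) k = (p : L) * term U m V (k + 1) := by
    intro k
    rw [term, term, ← powZ_natCast, powZ_powZ, ← mul_assoc, ← zpow_one_add₀ (p_ne_zero U)]
    congr 2
    · ring
    · congr 1; ring
  have hsum : part U m (V ^ p ^ m) N =
      (p : L) * (part U m V N + term U m V ((N : ℤ) + 1) - term U m V (-(N : ℤ))) := by
    rw [part, Finset.sum_congr rfl fun k _ => hterm k, ← Finset.mul_sum]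
    congr 1
    have e : ∑ k ∈ Finset.Icc (-(N : ℤ)) N, term U m V (k + 1) =
        ∑ k ∈ Finset.Icc (-(N : ℤ) + 1) ((N : ℤ) + 1), term U m V k := by
      refine Finset.sum_nbij' (fun k => k + 1) (fun k => k - 1) ?_ ?_ ?_ ?_ ?_ <;>
        intros <;> simp_all [Finset.mem_Icc]
    have hI : insert (-(N : ℤ)) (Finset.Icc (-(N : ℤ) + 1) ((N : ℤ) + 1)) =
        insert ((N : ℤ) + 1) (Finset.Icc (-(N : ℤ)) N) := by
      ext k; simp only [Finset.mem_Icc, Finset.mem_insert]; omega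
    have h2 := congrArg (fun s => ∑ k ∈ s, term U m V k) hI
    rw [Finset.sum_insert (by simp), Finset.sum_insert (by simp)] at h2
    rw [e, part]
    linear_combination h2
  show (B : WithTop ℚ) < U.v ((p : L) * y - part U m (V ^ p ^ m) N)
  rw [hsum, ← mul_sub, AddValuation.map_mul, v_p]
  refine lt_of_lt_of_le ?_ (le_add_of_nonneg_left (by exact_mod_cast zero_le_one))
  rw [show y - (part U m V N + term U m V ((N : ℤ) + 1) - term U m V (-(N : ℤ))) =
    (y - part U m V N) - term U m V ((N : ℤ) + 1) + term U m V (-(N : ℤ)) by ring]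
  exact (lt_min ((lt_min (hN₁ N (by omega)) (hN₃ N (by omega))).trans_le
    (AddValuation.map_sub _ _ _)) (hN₂ N (by omega))).trans_le (AddValuation.map_add _ _ _)

theorem powZ_mul_int_of_fixed {x : C p} (hx : powZ p x (m : ℤ) = x) (k : ℤ) :
    powZ p x ((m : ℤ) * k) = x := by
  induction k using Int.induction_on with
  | zero => rw [mul_zero, powZ_zero]
  | succ k ih => rw [mul_add, mul_one, ← powZ_powZ, ih, hx]
  | pred k ih =>
    rw [mul_sub, mul_one, sub_eq_add_neg, ← powZ_powZ, ih]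
    conv_lhs => rw [← hx]
    rw [powZ_powZ, add_neg_cancel, powZ_zero]

theorem isLn_const_mul {ω : Kb p} (hω : ω ^ p ^ m = ω) {V : C p} {y : L} (h : U.IsLn m V y) :
    U.IsLn m (HahnSeries.C ω * V) (U.sharp (HahnSeries.C ω) * y) := by
  intro B
  obtain ⟨N₁, hN₁⟩ := h B
  refine ⟨N₁, fun N hN => ?_⟩
  have hfix : powZ p (HahnSeries.C ω : C p) (m : ℤ) = HahnSeries.C ω := by
    rw [powZ_natCast, ← map_pow, hω]
  have hsum : part U m (HahnSeries.C ω * V) N =
      U.sharp (HahnSeries.C ω) * part U m V N := by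
    rw [part, part, Finset.mul_sum]
    refine Finset.sum_congr rfl fun k _ => ?_
    rw [term, term, powZ_mul, powZ_mul_int_of_fixed hfix, map_mul]
    ring
  show (B : WithTop ℚ) < U.v (_ - part U m (HahnSeries.C ω * V) N)
  rw [hsum, ← mul_sub, AddValuation.map_mul, U.v_sharp]
  exact (hN₁ N hN).trans_le (le_add_of_nonneg_left (ord_C_nonneg ω))

/-- Some large valuations have a single dominant term. -/
theorem exists_ord_isLn_ne_zero (hm : 1 ≤ m) (B : ℚ) :
    ∃ q : ℚ, B < q ∧ ∀ V y, ord V = q → U.IsLn m V y → y ≠ 0 := by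
  set Q : ℚ := (p : ℚ) ^ m with hQ
  have hQ2 : 2 ≤ Q := two_le_pow hm
  have hc : 0 < 3 / (2 * (Q - 1)) := by
    apply div_pos <;> linarith
  obtain ⟨j, hj⟩ := exists_growth (p := p) hm hc B
  refine ⟨3 / (2 * (Q - 1)) * Q ^ j,
    lt_of_le_of_lt (le_add_of_nonneg_right (Nat.cast_nonneg j)) (hj j le_rfl),
    fun V y hV hy h0 => ?_⟩
  set c : ℚ := 3 / (2 * (Q - 1)) with hcdef
  set g : ℤ → ℚ := fun k => ((-k : ℤ) : ℚ) + Q ^ k * (c * Q ^ j) with hg
  have hv : ∀ k, U.v (term U m V k) = (g k : ℚ) := by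
    intro k
    rw [v_term, ord_powZ hV, ← WithTop.coe_add, zpow_mul, zpow_natCast]
  have hQ0 : Q ≠ 0 := by linarith
  have hcQ : c * (Q - 1) = 3 / 2 := by
    rw [hcdef]; field_simp
    exact div_self (by linarith)
  have hmin : ∀ k : ℤ, k ≠ -(j : ℤ) → g (-(j : ℤ)) < g k := by
    intro k hk
    have e : ∀ i : ℤ, g (i - j) = ((j - i : ℤ) : ℚ) + c * Q ^ i := by
      intro i
      simp only [hg]
      rw [zpow_sub₀ hQ0, zpow_natCast]
      push_cast
      field_simp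
      ring
    obtain ⟨i, rfl⟩ : ∃ i, k = i - j := ⟨k + j, by ring⟩
    have e0 : g (-(j : ℤ)) = ((j - 0 : ℤ) : ℚ) + c * Q ^ (0 : ℤ) := by rw [← e 0]; ring_nf
    rw [e, e0]
    obtain ⟨l, rfl | rfl⟩ := Int.eq_nat_or_neg i
    · have hl : (1 : ℚ) ≤ l := by
        have : l ≠ 0 := fun h => hk (by simp [h])
        exact_mod_cast Nat.one_le_iff_ne_zero.2 this
      have hb := one_add_mul_le_pow (show (-2 : ℚ) ≤ Q - 1 by linarith) l
      rw [add_sub_cancel] at hb
      push_cast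
      rw [zpow_natCast, zpow_zero]
      nlinarith [mul_le_mul_of_nonneg_left hb hc.le]
    · have hl : (1 : ℚ) ≤ l := by
        have : l ≠ 0 := fun h => hk (by simp [h])
        exact_mod_cast Nat.one_le_iff_ne_zero.2 this
      have hx : 0 ≤ Q⁻¹ ∧ Q⁻¹ ≤ 1 / 2 :=
        ⟨by positivity, by rw [inv_le_comm₀ (by linarith) (by norm_num)]; linarith⟩
      have hb := one_add_mul_le_pow (show (-2 : ℚ) ≤ Q⁻¹ - 1 by linarith [hx.1]) l
      rw [add_sub_cancel] at hb
      push_cast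
      rw [zpow_neg, zpow_natCast, zpow_zero, ← inv_pow]
      have h1 : c * (1 - Q⁻¹) = 3 / 2 * Q⁻¹ := by
        rw [← hcQ]; field_simp
      nlinarith [mul_le_mul_of_nonneg_left hb hc.le, mul_le_mul_of_nonneg_left hx.2
        (show (0 : ℚ) ≤ l by linarith)]
  obtain ⟨N₁, hN₁⟩ := hy (g (-(j : ℤ)))
  set N := max N₁ j with hN
  have hmem : -(j : ℤ) ∈ Finset.Icc (-(N : ℤ)) N := by
    simp only [Finset.mem_Icc]; omega
  have hrest : U.v (term U m V (-(j : ℤ))) <
      U.v (∑ k ∈ (Finset.Icc (-(N : ℤ)) N).erase (-(j : ℤ)), term U m V k) := by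
    rw [hv]
    refine AddValuation.map_lt_sum' _ (WithTop.coe_lt_top _) fun k hk => ?_
    rw [hv, WithTop.coe_lt_coe]
    exact hmin k (Finset.ne_of_mem_erase hk)
  have h1 := hN₁ N (le_max_left _ _)
  rw [h0, zero_sub, AddValuation.map_neg] at h1
  change _ < U.v (part U m V N) at h1
  rw [part, ← Finset.add_sum_erase _ _ hmem, AddValuation.map_add_eq_of_lt_left _ hrest, hv] at h1
  exact lt_irrefl _ h1

end Vale.Agent.P217.Sharp
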