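import Vale.Agent.P217.Sharp.Growth

/-!
P217, module M5: leading coefficients, and the Moore lemma.
-/

noncomputable section

namespace Vale.Agent.P217.Sharp

/-- Natural-coefficient independence over the prime field. -/
def FpIndep {F : Type*} [Field F] {ι : Type*} (s : Finset ι) (ℓ : ι → F) : Prop :=
  ∀ a : ι → ℕ, ∑ t ∈ s, (a t : F) * ℓ t = 0 → ∀ t ∈ s, (a t : F) = 0

theorem exists_natCast_of_pow_eq_self {F : Type*} [Field F] {p : ℕ} [Fact p.Prime] [CharP F p]
    {x : F} (hx : x ^ p = x) : ∃ k : ℕ, (k : F) = x := by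
  have hb : x ∈ (⊥ : Subfield F) := (Subfield.mem_bot_iff_pow_eq_self F p).2 hx
  obtain ⟨z, hz⟩ := RingHom.mem_fieldRange.1
    ((bot_le : (⊥ : Subfield F) ≤ (ZMod.castHom (dvd_refl p) F).fieldRange) hb)
  exact ⟨z.val, by rw [← hz, ← map_natCast (ZMod.castHom (dvd_refl p) F), ZMod.natCast_zmod_val]⟩

/-- Moore: independent elements have an invertible matrix of `p^j`-th powers. -/
theorem moore {F : Type*} [Field F] (p : ℕ) [hp : Fact p.Prime] [CharP F p] {ι : Type*}
    [DecidableEq ι] :
    ∀ (s : Finset ι) (ℓ μ : ι → F), FpIndep s ℓ →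
      (∀ j < s.card, ∑ t ∈ s, μ t * ℓ t ^ p ^ j = 0) → ∀ t ∈ s, μ t = 0 := by
  intro s
  induction s using Finset.induction_on with
  | empty => simp
  | @insert a s ha ih =>
    intro ℓ μ hℓ h
    have hfrob : ∀ (b : ι → ℕ) (t : ι), ((b t : F)) ^ p = b t := fun b t => by
      rw [← frobenius_def, map_natCast]
    have hres : FpIndep s ℓ := by
      intro b hb t ht
      have := hℓ (Function.update b a 0) (by
        rw [Finset.sum_insert ha, Function.update_self, Nat.cast_zero, zero_mul, zero_add, ← hb]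
        exact Finset.sum_congr rfl fun u hu => by
          rw [Function.update_of_ne (ne_of_mem_of_not_mem hu ha)])
        t (Finset.mem_insert_of_mem ht)
      rwa [Function.update_of_ne (ne_of_mem_of_not_mem ht ha)] at this
    rw [Finset.card_insert_of_notMem ha] at h
    simp only [Finset.sum_insert ha] at h
    by_cases hμ : μ a = 0
    · intro t ht
      rcases Finset.mem_insert.1 ht with rfl | ht
      · exact hμ
      · exact ih ℓ μ hres (fun j hj => by simpa [hμ] using h j (by omega)) t ht
    exfalso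
    set ν : ι → F := fun t => μ t / μ a with hν
    have hE : ∀ j < s.card + 1, ℓ a ^ p ^ j + ∑ t ∈ s, ν t * ℓ t ^ p ^ j = 0 := by
      intro j hj
      have := h j hj
      rw [show ∑ t ∈ s, ν t * ℓ t ^ p ^ j = (∑ t ∈ s, μ t * ℓ t ^ p ^ j) / μ a by
        rw [Finset.sum_div]; exact Finset.sum_congr rfl fun t _ => by rw [hν]; ring]
      field_simp
      linear_combination this
    have hind : FpIndep s fun t => ℓ t ^ p := by
      intro b hb
      refine hres b ((pow_eq_zero_iff hp.out.ne_zero).1 ?_)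
      rw [sum_pow_char]
      simpa only [mul_pow, hfrob] using hb
    have hfix := ih (fun t => ℓ t ^ p) (fun t => ν t ^ p - ν t) hind fun j hj => by
      have h1 := congrArg (· ^ p) (hE j (by omega))
      simp only [add_pow_char, sum_pow_char, zero_pow hp.out.ne_zero, mul_pow, ← pow_mul,
        ← pow_succ] at h1
      have h2 := hE (j + 1) (by omega)
      simp only [sub_mul, Finset.sum_sub_distrib, ← pow_mul, ← pow_succ']
      linear_combination h1 - h2
    choose k hk using fun t : s => exists_natCast_of_pow_eq_self (p := p)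
      (sub_eq_zero.1 (hfix t.1 t.2))
    have := hℓ (fun t => if ht : t ∈ s then k ⟨t, ht⟩ else 1) ?_ a (Finset.mem_insert_self a s)
    · rw [dif_neg ha] at this
      simp at this
    · rw [Finset.sum_insert ha, dif_neg ha]
      have h0 := hE 0 (by omega)
      simp only [pow_zero, pow_one] at h0
      rw [Nat.cast_one, one_mul, ← h0]
      congr 1
      exact Finset.sum_congr rfl fun t ht => by rw [dif_pos ht, hk ⟨t, ht⟩]

variable {p : ℕ} [hp : Fact p.Prime] {L : Type} [Field L] (U : Untilt p L)

theorem powZ_natCast_left (k : ℕ) (j : ℤ) : powZ p (k : C p) j = k := by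
  induction k with
  | zero => simpa using powZ_zero_left j
  | succ k ih => rw [Nat.cast_succ, powZ_add, powZ_one_left, ih]

theorem powZ_sum {ι : Type*} (s : Finset ι) (x : ι → C p) (j : ℤ) :
    powZ p (∑ t ∈ s, x t) j = ∑ t ∈ s, powZ p (x t) j :=
  map_sum (⟨⟨fun z => powZ p z j, powZ_zero_left j⟩, fun a b => powZ_add a b j⟩ : C p →+ C p) x s

theorem coeff_pow_char' (y : C p) (q : ℚ) :
    (y ^ p).coeff ((p : ℚ) * q) = y.coeff q ^ p := by
  rw [coeff_pow_char, mul_div_cancel_left₀ _ (by exact_mod_cast hp.out.ne_zero)]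

/-- Coefficients of `powZ x M` are powers of those of `x`. -/
theorem C_coeff_powZ (x : C p) (σ : ℚ) (M : ℤ) :
    HahnSeries.C ((powZ p x M).coeff ((p : ℚ) ^ M * σ)) =
      powZ p (HahnSeries.C (x.coeff σ)) M := by
  have hp0 : (p : ℚ) ≠ 0 := by exact_mod_cast hp.out.ne_zero
  induction M using Int.induction_on with
  | zero => rw [powZ_zero, powZ_zero, zpow_zero, one_mul]
  | succ M ih =>
    rw [powZ_add_one, powZ_add_one, ← ih, zpow_add_one₀ hp0, mul_comm _ (p : ℚ), mul_assoc,
      coeff_pow_char', map_pow]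
  | pred M ih =>
    refine pow_char_injective ?_
    show _ ^ p = _ ^ p
    rw [← powZ_add_one, sub_add_cancel, ← ih, ← map_pow, ← coeff_pow_char', ← powZ_add_one,
      sub_add_cancel, zpow_sub_one₀ hp0]
    congr 2
    field_simp

theorem coeff_mul_lead {a b : C p} {γ δ : ℚ} (ha : ord a = γ) (hb : ord b = δ) :
    (a * b).coeff (γ + δ) = a.coeff γ * b.coeff δ := by
  have ha0 : a ≠ 0 := fun h => by simp [h] at ha
  have hb0 : b ≠ 0 := fun h => by simp [h] at hb
  have e1 : a.order = γ := WithTop.coe_injective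
    ((HahnSeries.order_eq_orderTop_of_ne_zero ha0).trans ha)
  have e2 : b.order = δ := WithTop.coe_injective
    ((HahnSeries.order_eq_orderTop_of_ne_zero hb0).trans hb)
  have := HahnSeries.coeff_mul_order_add_order a b
  rwa [HahnSeries.leadingCoeff_eq, HahnSeries.leadingCoeff_eq, e1, e2] at this

theorem coeff_ne_zero_of_ord {a : C p} {γ : ℚ} (ha : ord a = γ) : a.coeff γ ≠ 0 :=
  HahnSeries.coeff_orderTop_ne ha

/-- If multiplicative lifts nearly cancel, so do the leading terms. -/
theorem coeff_sum_eq_zero_of_lt {ι : Type*} (s : Finset ι) (b : ι → C p) {μ : ℚ}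
    (hb : ∀ t ∈ s, (μ : WithTop ℚ) ≤ ord (b t))
    (h : (μ : WithTop ℚ) < U.v (∑ t ∈ s, U.sharp (b t))) :
    (∑ t ∈ s, b t).coeff μ = 0 := by
  classical
  have key : ∀ s : Finset ι, (∀ t ∈ s, (μ : WithTop ℚ) ≤ ord (b t)) →
      0 ≤ ord (∑ t ∈ s, tpow p (-μ) * b t) ∧
      1 ≤ U.v (U.sharp (∑ t ∈ s, tpow p (-μ) * b t) -
        ∑ t ∈ s, U.sharp (tpow p (-μ) * b t)) := by
    intro s
    induction s using Finset.induction_on with
    | empty => simp [U.sharp_zero]
    | @insert a s ha ih =>
      intro hs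
      obtain ⟨h1, h2⟩ := ih fun t ht => hs t (Finset.mem_insert_of_mem ht)
      have h0 : 0 ≤ ord (tpow p (-μ) * b a) := by
        rw [ord_mul, ord_tpow]
        refine le_trans ?_ (add_le_add le_rfl (hs a (Finset.mem_insert_self a s)))
        rw [← WithTop.coe_add, neg_add_cancel]
        rfl
      rw [Finset.sum_insert ha, Finset.sum_insert ha]
      refine ⟨le_ord_add h0 h1, ?_⟩
      have h3 := U.sharp_add _ _ h0 h1
      rw [show ∀ A x S T : L, A - (x + T) = (A - x - S) + (S - T) by intros; ring]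
      exact AddValuation.map_le_add _ h3 h2
  obtain ⟨-, h2⟩ := key s hb
  set β := ∑ t ∈ s, tpow p (-μ) * b t with hβ
  have h4 : ((0 : ℚ) : WithTop ℚ) < U.v (U.sharp β) := by
    rw [show U.sharp β = (U.sharp β - ∑ t ∈ s, U.sharp (tpow p (-μ) * b t)) +
      ∑ t ∈ s, U.sharp (tpow p (-μ) * b t) by ring]
    refine (lt_min (lt_of_lt_of_le ?_ h2) ?_).trans_le (AddValuation.map_add _ _ _)
    · exact WithTop.coe_lt_coe.2 one_pos
    · simp only [map_mul]
      rw [← Finset.mul_sum, AddValuation.map_mul, U.v_sharp, ord_tpow]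
      revert h
      generalize U.v (∑ t ∈ s, U.sharp (b t)) = e
      intro h
      cases e with
      | top => exact WithTop.coe_lt_top _
      | coe q =>
        rw [WithTop.coe_lt_coe] at h
        rw [← WithTop.coe_add, WithTop.coe_lt_coe]
        linarith
  rw [U.v_sharp] at h4
  have e : ∑ t ∈ s, b t = tpow p μ * β := by
    rw [hβ, Finset.mul_sum]
    refine Finset.sum_congr rfl fun t _ => ?_
    rw [← mul_assoc, ← tpow_add, add_neg_cancel]
    simp [tpow]
  rw [e]
  refine lt_ord_iff.mp ?_ μ le_rfl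
  rw [ord_mul, ord_tpow]
  revert h4
  generalize ord β = e
  intro h4
  cases e with
  | top => exact WithTop.coe_lt_top _
  | coe q =>
    rw [WithTop.coe_lt_coe] at h4
    rw [← WithTop.coe_add, WithTop.coe_lt_coe]
    linarith

end Vale.Agent.P217.Sharp
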