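import Vale.Agent.P217.Sharp.Lead

/-!
P217, module M5: the functions `L_n` of fewer than `n` orthogonal elements are independent.
-/

noncomputable section

namespace Vale.Agent.P217.Sharp

variable {p : ℕ} [hp : Fact p.Prime] {L : Type} [Field L] (U : Untilt p L) {n : ℕ}

/-- Valuations in `[1, p^n)`, with independent leading coefficients at each valuation. -/
structure IsOrth (p : ℕ) [Fact p.Prime] (n : ℕ) {g : ℕ} (σ : Fin g → ℚ) (x : Fin g → C p) :
    Prop where
  ord_eq : ∀ t, ord (x t) = σ t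
  one_le : ∀ t, 1 ≤ σ t
  lt_pow : ∀ t, σ t < (p : ℚ) ^ n
  indep : ∀ σ₀, FpIndep (Finset.univ.filter fun t => σ t = σ₀) (fun t => (x t).coeff (σ t))

theorem exists_window (hn : 1 ≤ n) {c : ℚ} (hc : 0 < c) (B : ℚ) :
    ∃ N₀ : ℕ, ∀ k : ℤ, -(k : ℚ) + c * ((p : ℚ) ^ n) ^ k ≤ B → k.natAbs ≤ N₀ := by
  obtain ⟨N₁, hN₁⟩ := exists_growth (p := p) hn hc B
  obtain ⟨N₂, hN₂⟩ := exists_nat_gt B
  refine ⟨max N₁ N₂, fun k hk => ?_⟩
  by_contra hlt
  rw [not_le] at hlt
  obtain ⟨l, rfl | rfl⟩ := Int.eq_nat_or_neg k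
  · have := hN₁ l (by omega)
    rw [zpow_natCast] at hk
    push_cast at hk
    linarith
  · have h2 : (N₂ : ℚ) ≤ l := by
      exact_mod_cast (show N₂ ≤ l by simp only [Int.natAbs_neg, Int.natAbs_natCast] at hlt; omega)
    have h3 : (0 : ℚ) ≤ c * ((p : ℚ) ^ n) ^ (-(l : ℤ)) :=
      mul_nonneg hc.le (zpow_nonneg (pow_nonneg (Nat.cast_nonneg p) n) _)
    push_cast at hk
    linarith

theorem IsOrth.eq_zero (hn : 1 ≤ n) {g : ℕ} {σ : Fin g → ℚ} {x : Fin g → C p}
    (h : IsOrth p n σ x) (hg : g < n) (D : Fin g → L) (y : Fin g → ℤ → L)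
    (hy : ∀ t M, U.IsLn n (powZ p (x t) M) (y t M)) (hD : ∀ M, ∑ t, D t * y t M = 0) : D = 0 := by
  classical
  by_contra hne
  obtain ⟨t₁, ht₁⟩ := Function.ne_iff.1 hne
  set T := Finset.univ.filter fun t => D t ≠ 0 with hTdef
  have hmemT : ∀ t, t ∈ T ↔ D t ≠ 0 := fun t => by simp [hTdef]
  have hTne : t₁ ∈ T := (hmemT t₁).2 ht₁
  set γ : Fin g → ℚ := fun t => (U.v (D t)).untopD 0
  have hγ : ∀ t ∈ T, U.v (D t) = γ t := fun t ht => by
    obtain ⟨q, hq⟩ := WithTop.ne_top_iff_exists.1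
      ((AddValuation.ne_top_iff U.v).2 ((hmemT t).1 ht))
    show _ = (((U.v (D t)).untopD 0 : ℚ) : WithTop ℚ)
    rw [← hq]
    rfl
  set Q : ℚ := (p : ℚ) ^ n with hQ
  have hQ1 : 1 < Q := lt_of_lt_of_le one_lt_two (two_le_pow hn)
  have hQ0 : Q ≠ 0 := (zero_lt_one.trans hQ1).ne'
  have hp0 : (0 : ℚ) < p := by exact_mod_cast hp.out.pos
  set φ : ℤ → Fin g × ℤ → ℚ := fun M i =>
    γ i.1 - (i.2 : ℚ) + σ i.1 * (p : ℚ) ^ (M + (n : ℤ) * i.2) with hφ
  set slope : Fin g × ℤ → ℚ := fun i => σ i.1 * Q ^ i.2 with hslope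
  have hφ' : ∀ M i, φ M i = γ i.1 - (i.2 : ℚ) + slope i * (p : ℚ) ^ M := fun M i => by
    simp only [hφ, hslope]
    rw [zpow_add₀ hp0.ne', zpow_mul, zpow_natCast]
    ring
  set IsMin : ℤ → Fin g × ℤ → Prop := fun M i =>
    i.1 ∈ T ∧ ∀ j : Fin g × ℤ, j.1 ∈ T → φ M i ≤ φ M j with hIsMin
  -- minimisers form a finite nonempty set
  have hA : ∀ M, ∃ A : Finset (Fin g × ℤ), A.Nonempty ∧ ∀ i, i ∈ A ↔ IsMin M i := by
    intro M
    have hw : ∀ t : Fin g, ∃ N : ℕ, ∀ k : ℤ, φ M (t, k) ≤ φ M (t₁, 0) → k.natAbs ≤ N := by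
      intro t
      obtain ⟨N, hN⟩ := exists_window (p := p) hn
        (c := σ t * (p : ℚ) ^ M) (mul_pos (zero_lt_one.trans_le (h.one_le t)) (zpow_pos hp0 _))
        (φ M (t₁, 0) - γ t)
      refine ⟨N, fun k hk => hN k ?_⟩
      rw [hφ'] at hk
      simp only [hslope] at hk
      linarith
    choose Nw hNw using hw
    set N : ℕ := ∑ t, Nw t
    set S₀ := T ×ˢ Finset.Icc (-(N : ℤ)) N with hS₀
    have hmem : ∀ i : Fin g × ℤ, i.1 ∈ T → φ M i ≤ φ M (t₁, 0) → i ∈ S₀ := by
      rintro ⟨t, k⟩ ht hi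
      have h1 := hNw t k hi
      have h2 : Nw t ≤ N := Finset.single_le_sum (fun j _ => Nat.zero_le (Nw j)) (Finset.mem_univ t)
      simp only [hS₀, Finset.mem_product, Finset.mem_Icc]
      exact ⟨ht, by omega⟩
    obtain ⟨i₀, hi₀, hmin⟩ := S₀.exists_min_image (φ M) ⟨(t₁, 0), hmem _ hTne le_rfl⟩
    have hi₀T : i₀.1 ∈ T := (Finset.mem_product.1 hi₀).1
    have hglob : IsMin M i₀ := ⟨hi₀T, fun j hj => by
      by_contra hlt
      rw [not_le] at hlt
      exact not_le.2 hlt (hmin j (hmem j hj (hlt.le.trans (hmin _ (hmem _ hTne le_rfl)))))⟩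
    refine ⟨S₀.filter (IsMin M), ⟨i₀, Finset.mem_filter.2 ⟨hi₀, hglob⟩⟩, fun i => ?_⟩
    rw [Finset.mem_filter]
    exact ⟨fun hi => hi.2, fun hi => ⟨hmem i hi.1 (hi.2 _ hTne), hi⟩⟩
  choose A hAne hAmem using hA
  -- the minimal terms cancel
  have hcancel : ∀ M, ∀ i₀, IsMin M i₀ → (φ M i₀ : WithTop ℚ) <
      U.v (∑ i ∈ A M, D i.1 * ((p : L) ^ (-i.2) *
        U.sharp (powZ p (x i.1) (M + (n : ℤ) * i.2)))) := by
    intro M i₀ hi₀
    choose N₁ hN₁ using fun t => hy t M (φ M i₀ - γ t)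
    set N : ℕ := ∑ t, N₁ t + ∑ i ∈ A M, i.2.natAbs
    set F : Fin g × ℤ → L := fun i =>
      D i.1 * ((p : L) ^ (-i.2) * U.sharp (powZ p (x i.1) (M + (n : ℤ) * i.2))) with hF
    set W := T ×ˢ Finset.Icc (-(N : ℤ)) N with hW
    have hsub : A M ⊆ W := fun i hi => by
      have := Finset.single_le_sum (f := fun i : Fin g × ℤ => i.2.natAbs)
        (fun j _ => Nat.zero_le _) hi
      simp only [hW, Finset.mem_product, Finset.mem_Icc]
      exact ⟨((hAmem M i).1 hi).1, by omega⟩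
    have hall : (φ M i₀ : WithTop ℚ) < U.v (∑ i ∈ W, F i) := by
      have e : ∑ i ∈ W, F i =
          -∑ t ∈ T, D t * (y t M - part U n (powZ p (x t) M) N) := by
        have e0 : ∑ t ∈ T, D t * y t M = 0 := by
          rw [← hD M]
          exact Finset.sum_subset (Finset.subset_univ _) fun t _ ht => by
            rw [not_not.1 fun hh => ht ((hmemT t).2 hh), zero_mul]
        simp only [mul_sub, Finset.sum_sub_distrib, e0, zero_sub, neg_neg]
        rw [hW, Finset.sum_product]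
        refine Finset.sum_congr rfl fun t _ => ?_
        rw [part, Finset.mul_sum]
        refine Finset.sum_congr rfl fun k _ => ?_
        rw [hF, term, powZ_powZ]
      rw [e, AddValuation.map_neg]
      refine AddValuation.map_lt_sum' _ (WithTop.coe_lt_top _) fun t ht => ?_
      have h1 : N₁ t ≤ N := (Finset.single_le_sum (fun j _ => Nat.zero_le (N₁ j))
        (Finset.mem_univ t)).trans (Nat.le_add_right _ _)
      have h2 := hN₁ t N h1
      change _ < U.v (y t M - part U n (powZ p (x t) M) N) at h2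
      rw [AddValuation.map_mul, hγ t ht]
      revert h2
      generalize U.v (y t M - part U n (powZ p (x t) M) N) = e'
      intro h2
      cases e' with
      | top => exact WithTop.coe_lt_top _
      | coe q =>
        rw [WithTop.coe_lt_coe] at h2
        rw [← WithTop.coe_add, WithTop.coe_lt_coe]
        linarith
    have hrest : (φ M i₀ : WithTop ℚ) < U.v (∑ i ∈ W \ A M, F i) := by
      refine AddValuation.map_lt_sum' _ (WithTop.coe_lt_top _) fun i hi => ?_
      rw [Finset.mem_sdiff, hW, Finset.mem_product] at hi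
      rw [hF]
      simp only
      rw [AddValuation.map_mul, AddValuation.map_mul, hγ i.1 hi.1.1, v_p_zpow, U.v_sharp,
        ord_powZ (h.ord_eq i.1), ← WithTop.coe_add, ← WithTop.coe_add, WithTop.coe_lt_coe]
      obtain ⟨j, hj, hlt⟩ : ∃ j : Fin g × ℤ, j.1 ∈ T ∧ φ M j < φ M i := by
        by_contra hc
        push Not at hc
        exact hi.2 ((hAmem M i).2 ⟨hi.1.1, hc⟩)
      refine lt_of_le_of_lt (hi₀.2 j hj) (lt_of_lt_of_le hlt (le_of_eq ?_))
      simp only [hφ]
      push_cast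
      ring
    rw [show ∑ i ∈ A M, F i = ∑ i ∈ W, F i - ∑ i ∈ W \ A M, F i by
      rw [← Finset.sum_sdiff hsub]; ring]
    exact (lt_min hall hrest).trans_le (AddValuation.map_sub _ _ _)
  -- indices ordered like slopes
  set S := T.image σ with hS
  set K := S.card with hK
  set rk : Fin g → ℕ := fun t => (S.filter fun s => s < σ t).card with hrk
  have hrk_lt : ∀ t ∈ T, rk t < K := fun t ht => Finset.card_lt_card (Finset.filter_ssubset.2
    ⟨σ t, Finset.mem_image_of_mem σ ht, lt_irrefl _⟩)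
  have hrk_mono : ∀ t ∈ T, ∀ t', σ t < σ t' → rk t < rk t' := fun t ht t' hlt => by
    refine Finset.card_lt_card (Finset.ssubset_iff_of_subset ?_ |>.2 ⟨σ t, ?_, ?_⟩)
    · exact Finset.monotone_filter_right S fun s _ hs => lt_trans hs hlt
    · exact Finset.mem_filter.2 ⟨Finset.mem_image_of_mem σ ht, hlt⟩
    · simp
  set idx : Fin g × ℤ → ℤ := fun i => i.2 * K + rk i.1 with hidx
  have hklt : ∀ i i' : Fin g × ℤ, i'.1 ∈ T → i'.2 < i.2 → idx i' < idx i := by
    intro i i' hi' hlt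
    have h1 := hrk_lt i'.1 hi'
    have h2 : (i'.2 + 1) * (K : ℤ) ≤ i.2 * K := mul_le_mul_of_nonneg_right hlt (Nat.cast_nonneg K)
    simp only [hidx]
    nlinarith [Int.ofNat_lt.2 h1, Int.natCast_nonneg (rk i.1)]
  have hslope_lt : ∀ i i' : Fin g × ℤ, i.1 ∈ T → i'.1 ∈ T → idx i' < idx i →
      slope i' < slope i := by
    intro i i' hi hi' hlt
    simp only [hslope]
    rcases lt_trichotomy i'.2 i.2 with hk | hk | hk
    · calc σ i'.1 * Q ^ i'.2 < Q * Q ^ i'.2 :=
            mul_lt_mul_of_pos_right (h.lt_pow i'.1) (zpow_pos (zero_lt_one.trans hQ1) _)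
        _ = Q ^ (i'.2 + 1) := by rw [zpow_add_one₀ hQ0, mul_comm]
        _ ≤ Q ^ i.2 := zpow_le_zpow_right₀ hQ1.le hk
        _ ≤ σ i.1 * Q ^ i.2 :=
            le_mul_of_one_le_left (zpow_nonneg (zero_le_one.trans hQ1.le) _) (h.one_le i.1)
    · rw [hk]
      refine mul_lt_mul_of_pos_right ?_ (zpow_pos (zero_lt_one.trans hQ1) _)
      simp only [hidx, hk] at hlt
      by_contra hle
      rcases eq_or_lt_of_le (not_lt.1 hle) with he | hl
      · rw [hrk] at hlt; simp only [he] at hlt; omega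
      · have := hrk_mono i.1 hi i'.1 hl; omega
    · exact absurd hlt (not_lt.2 (hklt i' i hi hk).le)
  have hidx_eq : ∀ i i' : Fin g × ℤ, i.1 ∈ T → i'.1 ∈ T → idx i = idx i' →
      σ i.1 = σ i'.1 ∧ i.2 = i'.2 := by
    intro i i' hi hi' he
    rcases lt_trichotomy i'.2 i.2 with hk | hk | hk
    · exact absurd he (hklt i i' hi' hk).ne'
    · refine ⟨?_, hk.symm⟩
      simp only [hidx, hk] at he
      rcases lt_trichotomy (σ i.1) (σ i'.1) with hl | hl | hl
      · have := hrk_mono i.1 hi i'.1 hl; omega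
      · exact hl
      · have := hrk_mono i'.1 hi' i.1 hl; omega
    · exact absurd he (hklt i' i hi hk).ne
  have hmono : ∀ M M' : ℤ, M < M' → ∀ i i', IsMin M i → IsMin M' i' → idx i' ≤ idx i := by
    intro M M' hMM i i' hi hi'
    by_contra hlt
    rw [not_le] at hlt
    have h1 := hslope_lt i' i hi'.1 hi.1 hlt
    have h2 := hi.2 i' hi'.1
    have h3 := hi'.2 i hi.1
    rw [hφ', hφ'] at h2 h3
    have h4 : (p : ℚ) ^ M < (p : ℚ) ^ M' :=
      zpow_lt_zpow_right₀ (by exact_mod_cast hp.out.one_lt) hMM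
    nlinarith [mul_pos (sub_pos.2 h1) (sub_pos.2 h4)]
  have hshift : ∀ (M j : ℤ) (t : Fin g) (k : ℤ),
      IsMin (M + (n : ℤ) * j) (t, k) ↔ IsMin M (t, k + j) := by
    intro M j t k
    have e : ∀ (t : Fin g) (k : ℤ), φ (M + (n : ℤ) * j) (t, k) = φ M (t, k + j) + j := by
      intro t k
      simp only [hφ]
      rw [show M + (n : ℤ) * j + (n : ℤ) * k = M + (n : ℤ) * (k + j) by ring]
      push_cast
      ring
    constructor
    · rintro ⟨ht, hmin⟩
      refine ⟨ht, fun i hi => ?_⟩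
      have := hmin (i.1, i.2 - j) hi
      rw [e, e, sub_add_cancel] at this
      simpa using this
    · rintro ⟨ht, hmin⟩
      refine ⟨ht, fun i hi => ?_⟩
      rw [show i = (i.1, i.2) from rfl, e, e]
      simpa using hmin (i.1, i.2 + j) hi
  set hi : ℤ → ℤ := fun M => (A M).sup' (hAne M) idx with hhi
  set lo : ℤ → ℤ := fun M => (A M).inf' (hAne M) idx with hlo
  have hhilo : ∀ M, hi (M + 1) ≤ lo M := fun M => by
    obtain ⟨a, ha, hae⟩ := Finset.exists_mem_eq_sup' (hAne (M + 1)) idx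
    refine Finset.le_inf' _ _ fun i hiA => ?_
    simp only [hhi]
    rw [hae]
    exact hmono M (M + 1) (lt_add_one M) i a ((hAmem M i).1 hiA) ((hAmem _ a).1 ha)
  have hlohi : ∀ M, lo M ≤ hi M := fun M => by
    obtain ⟨a, ha⟩ := hAne M
    exact (Finset.inf'_le _ ha).trans (Finset.le_sup' idx ha)
  have hper : hi n + K = hi 0 := by
    have key : ∀ t k, (t, k) ∈ A (n : ℤ) ↔ (t, k + 1) ∈ A 0 := fun t k => by
      rw [hAmem, hAmem, ← hshift 0 1 t k, zero_add, mul_one]
    have e : ∀ t k, idx (t, k + 1) = idx (t, k) + K := fun t k => by simp only [hidx]; ring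
    refine le_antisymm ?_ ?_
    · obtain ⟨⟨t, k⟩, ha, hae⟩ := Finset.exists_mem_eq_sup' (hAne (n : ℤ)) idx
      simp only [hhi]
      rw [hae, ← e]
      exact Finset.le_sup' idx ((key t k).1 ha)
    · refine Finset.sup'_le _ _ fun ⟨t, k⟩ ha => ?_
      have := Finset.le_sup' idx ((key t (k - 1)).2 (by rwa [sub_add_cancel]))
      have e' := e t (k - 1)
      rw [sub_add_cancel] at e'
      simp only [hhi]
      omega
  set Ex := (Finset.range n).filter fun M : ℕ => hi M = lo M with hEx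
  have hcount : n ≤ Ex.card + K := by
    have h1 : ∀ M ∈ Finset.range n,
        (1 : ℤ) ≤ (if hi (M : ℤ) = lo M then 1 else 0) + (hi (M : ℤ) - hi ((M + 1 : ℕ) : ℤ)) := by
      intro M _
      have h2 := hhilo M
      have h3 := hlohi M
      push_cast
      split_ifs with hc <;> omega
    have h4 := Finset.sum_le_sum h1
    rw [Finset.sum_add_distrib, Finset.sum_range_sub' (fun M : ℕ => hi (M : ℤ)), ← Finset.sum_filter,
      ← hEx, Finset.sum_const, Finset.sum_const, Finset.card_range] at h4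
    simp only [nsmul_one, Nat.cast_zero] at h4
    omega
  set rep : ℤ → Fin g × ℤ := fun M => (hAne M).choose with hrepdef
  have hrep : ∀ M, IsMin M (rep M) := fun M => (hAmem M _).1 (hAne M).choose_spec
  have hexcl : ∀ M, hi M = lo M → ∀ i, IsMin M i →
      σ i.1 = σ (rep M).1 ∧ i.2 = (rep M).2 := by
    intro M he i hmin
    refine hidx_eq i _ hmin.1 (hrep M).1 ?_
    have hb : ∀ j, IsMin M j → idx j = hi M := fun j hj => le_antisymm
      (Finset.le_sup' idx ((hAmem M j).2 hj)) (he ▸ Finset.inf'_le idx ((hAmem M j).2 hj))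
    rw [hb i hmin, hb _ (hrep M)]
  obtain ⟨σ₀, hσ₀, hcard⟩ : ∃ σ₀ ∈ S, (T.filter fun t => σ t = σ₀).card ≤
      (Ex.filter fun M : ℕ => σ (rep M).1 = σ₀).card := by
    by_contra hc
    push Not at hc
    have h1 := Finset.sum_le_sum fun s hs => Nat.succ_le_of_lt (hc s hs)
    rw [← Finset.card_eq_sum_card_fiberwise (fun t ht => Finset.mem_image_of_mem σ ht)] at h1
    simp only [Nat.succ_eq_add_one, Finset.sum_add_distrib, Finset.sum_const, smul_eq_mul,
      mul_one] at h1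
    rw [← Finset.card_eq_sum_card_fiberwise (t := S) (f := fun M : ℕ => σ (rep M).1) fun M _ =>
      Finset.mem_image_of_mem σ (hrep (M : ℤ)).1] at h1
    have h2 : T.card ≤ g := (Finset.card_le_univ T).trans (by simp)
    omega
  -- translate to index zero
  set E₀ := (Ex.filter fun M : ℕ => σ (rep M).1 = σ₀).image
    (fun M : ℕ => (M : ℤ) + (n : ℤ) * (rep M).2) with hE₀
  have hE₀card : E₀.card = (Ex.filter fun M : ℕ => σ (rep M).1 = σ₀).card := by
    refine Finset.card_image_of_injOn fun a ha b hb hab => ?_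
    have ha' : a < n := Finset.mem_range.1 (Finset.mem_filter.1 (Finset.mem_filter.1 ha).1).1
    have hb' : b < n := Finset.mem_range.1 (Finset.mem_filter.1 (Finset.mem_filter.1 hb).1).1
    have h1 := congrArg (fun z => z % (n : ℤ)) hab
    simp only [Int.add_mul_emod_self_left] at h1
    rw [Int.emod_eq_of_lt (by omega) (by omega), Int.emod_eq_of_lt (by omega) (by omega)] at h1
    omega
  have hE₀ex : ∀ M ∈ E₀, ∀ i, IsMin M i → σ i.1 = σ₀ ∧ i.2 = 0 := by
    intro M hM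
    obtain ⟨M', hM', rfl⟩ := Finset.mem_image.1 hM
    rw [Finset.mem_filter] at hM'
    rintro ⟨t, k⟩ hmin
    obtain ⟨h1, h2⟩ :=
      hexcl _ (Finset.mem_filter.1 hM'.1).2 _ ((hshift _ _ t k).1 hmin)
    exact ⟨h1.trans hM'.2, by simp only at h2 ⊢; omega⟩
  have hσne : (T.filter fun t => σ t = σ₀).Nonempty := by
    obtain ⟨t, ht, he⟩ := Finset.mem_image.1 hσ₀
    exact ⟨t, Finset.mem_filter.2 ⟨ht, he⟩⟩
  have hE₀ne : E₀.Nonempty := Finset.card_pos.1 (by have := hσne.card_pos; omega)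
  set M₀ := E₀.min' hE₀ne with hM₀
  set M₁ := E₀.max' hE₀ne with hM₁
  have hex : ∀ j : ℕ, j < (T.filter fun t => σ t = σ₀).card →
      ∀ i, IsMin (M₀ + j) i → σ i.1 = σ₀ ∧ i.2 = 0 := by
    intro j hj i hmin
    have hspan : E₀.card ≤ (Finset.Icc M₀ M₁).card := Finset.card_le_card fun M hM =>
      Finset.mem_Icc.2 ⟨E₀.min'_le M hM, E₀.le_max' M hM⟩
    rw [Int.card_Icc] at hspan
    obtain ⟨h01, h02⟩ := hE₀ex M₀ (E₀.min'_mem hE₀ne) _ (hrep M₀)
    obtain ⟨h11, h12⟩ := hE₀ex M₁ (E₀.max'_mem hE₀ne) _ (hrep M₁)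
    have heq : idx (rep M₁) = idx (rep M₀) := by simp only [hidx, hrk, h01, h02, h11, h12]
    rcases Nat.eq_zero_or_pos j with rfl | hpos
    · rw [Nat.cast_zero, add_zero] at hmin
      exact hE₀ex M₀ (E₀.min'_mem hE₀ne) i hmin
    rcases eq_or_lt_of_le (show M₀ + j ≤ M₁ by omega) with he | hlt
    · rw [he] at hmin
      exact hE₀ex M₁ (E₀.max'_mem hE₀ne) i hmin
    have hu := hmono M₀ (M₀ + j) (by omega) _ i (hrep M₀) hmin
    have hl := hmono (M₀ + j) M₁ hlt i _ hmin (hrep M₁)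
    obtain ⟨e1, e2⟩ := hidx_eq i (rep M₀) hmin.1 (hrep M₀).1 (by omega)
    exact ⟨e1.trans h01, e2.trans h02⟩
  -- the class with the smallest valuation
  set R := T.filter fun t => σ t = σ₀ ∧ ∀ t' ∈ T, σ t' = σ₀ → γ t ≤ γ t' with hR
  have hRcard : R.card ≤ (T.filter fun t => σ t = σ₀).card :=
    Finset.card_le_card (Finset.monotone_filter_right T fun t _ ht => ht.1)
  obtain ⟨t₀, ht₀, ht₀min⟩ := (T.filter fun t => σ t = σ₀).exists_min_image γ hσne
  rw [Finset.mem_filter] at ht₀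
  have ht₀R : t₀ ∈ R := Finset.mem_filter.2
    ⟨ht₀.1, ht₀.2, fun t' h1 h2 => ht₀min t' (Finset.mem_filter.2 ⟨h1, h2⟩)⟩
  have hγR : ∀ t ∈ R, γ t = γ t₀ ∧ σ t = σ₀ ∧ t ∈ T := by
    intro t ht
    obtain ⟨h1, h2, h3⟩ := Finset.mem_filter.1 ht
    exact ⟨le_antisymm (h3 t₀ ht₀.1 ht₀.2) (ht₀min t (Finset.mem_filter.2 ⟨h1, h2⟩)), h2, h1⟩
  choose! a haord haclose using fun t (ht : t ∈ R) => U.approx (D t) ((hmemT t).1 (hγR t ht).2.2)
  have hlead : ∀ j < R.card, ∑ t ∈ R, HahnSeries.C ((a t).coeff (γ t₀)) *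
      powZ p (HahnSeries.C ((x t).coeff (σ t))) M₀ ^ p ^ j = 0 := by
    intro j hj
    have hexj := hex j (by omega)
    set M := M₀ + (j : ℤ) with hM
    have hflat : ∀ t, σ t = σ₀ → φ M (t, 0) = γ t + σ₀ * (p : ℚ) ^ M := fun t ht => by
      simp only [hφ, ht, mul_zero, add_zero, Int.cast_zero, sub_zero]
    have hAeq : A M = R.image fun t => (t, (0 : ℤ)) := by
      ext ⟨t, k⟩
      rw [hAmem, Finset.mem_image]
      constructor
      · intro hmin
        obtain ⟨h1, h2⟩ := hexj _ hmin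
        simp only at h1 h2
        subst h2
        refine ⟨t, Finset.mem_filter.2 ⟨hmin.1, h1, fun t' ht' hs => ?_⟩, rfl⟩
        have := hmin.2 (t', 0) ht'
        rw [hflat t h1, hflat t' hs] at this
        linarith
      · rintro ⟨t', ht', he⟩
        obtain ⟨rfl, rfl⟩ := Prod.ext_iff.1 he
        obtain ⟨h1, h2, h3⟩ := Finset.mem_filter.1 ht'
        obtain ⟨r, hr⟩ := hAne M
        rw [hAmem] at hr
        obtain ⟨e1, e2⟩ := hexj r hr
        refine ⟨h1, fun i hiT => le_trans ?_ (hr.2 i hiT)⟩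
        rw [show r = (r.1, (0 : ℤ)) from Prod.ext rfl e2, hflat _ h2, hflat _ e1]
        have := h3 r.1 hr.1 e1
        linarith
    have hm0 : IsMin M (t₀, 0) := (hAmem M _).1 (hAeq ▸ Finset.mem_image_of_mem _ ht₀R)
    have h1 := hcancel M (t₀, 0) hm0
    rw [hAeq, Finset.sum_image fun a _ b _ hab => (Prod.ext_iff.1 hab).1, hflat t₀ ht₀.2] at h1
    simp only [neg_zero, zpow_zero, one_mul, mul_zero, add_zero] at h1
    have hord : ∀ t ∈ R, ord (powZ p (x t) M) = ((σ₀ * (p : ℚ) ^ M : ℚ) : WithTop ℚ) :=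
      fun t ht => by rw [ord_powZ (h.ord_eq t), (hγR t ht).2.1, mul_comm]
    have hb : ∀ t ∈ R, ord (a t) = (γ t₀ : WithTop ℚ) := fun t ht => by
      rw [haord t ht, hγ t (hγR t ht).2.2, (hγR t ht).1]
    have h2 := coeff_sum_eq_zero_of_lt U R (fun t => a t * powZ p (x t) M)
      (μ := γ t₀ + σ₀ * (p : ℚ) ^ M) (fun t ht => by
        rw [ord_mul, hb t ht, hord t ht, ← WithTop.coe_add]) (by
        rw [show ∑ t ∈ R, U.sharp (a t * powZ p (x t) M) =
          ∑ t ∈ R, D t * U.sharp (powZ p (x t) M) -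
            ∑ t ∈ R, (D t - U.sharp (a t)) * U.sharp (powZ p (x t) M) by
          rw [← Finset.sum_sub_distrib]
          exact Finset.sum_congr rfl fun t _ => by rw [map_mul]; ring]
        refine (lt_min h1 ?_).trans_le (AddValuation.map_sub _ _ _)
        refine AddValuation.map_lt_sum' _ (WithTop.coe_lt_top _) fun t ht => ?_
        rw [AddValuation.map_mul, U.v_sharp, hord t ht, WithTop.coe_add]
        refine (WithTop.add_lt_add_iff_right WithTop.coe_ne_top).2 ?_
        have := haclose t ht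
        rwa [hγ t (hγR t ht).2.2, (hγR t ht).1] at this)
    have h3 := congrArg (HahnSeries.C : Kb p →+* C p) h2
    rw [HahnSeries.coeff_sum, map_sum, map_zero] at h3
    rw [← h3]
    refine Finset.sum_congr rfl fun t ht => ?_
    rw [coeff_mul_lead (hb t ht) (hord t ht), map_mul, mul_comm σ₀, ← (hγR t ht).2.1,
      C_coeff_powZ, ← powZ_natCast _ j, powZ_powZ]
  have hind : FpIndep R fun t => powZ p (HahnSeries.C ((x t).coeff (σ t))) M₀ := by
    intro b hb t ht
    have hz : (HahnSeries.C (∑ t ∈ R, (b t : Kb p) * (x t).coeff (σ t)) : C p) = 0 := by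
      have e : powZ p (HahnSeries.C (∑ t ∈ R, (b t : Kb p) * (x t).coeff (σ t)) : C p) M₀ = 0 := by
        rw [map_sum, powZ_sum, ← hb]
        exact Finset.sum_congr rfl fun t _ => by
          rw [map_mul, map_natCast, powZ_mul, powZ_natCast_left]
      have := congrArg (fun z => powZ p z (-M₀)) e
      simpa only [powZ_powZ, add_neg_cancel, powZ_zero, powZ_zero_left] using this
    rw [map_eq_zero_iff _ HahnSeries.C_injective] at hz
    have := h.indep σ₀ (fun u => if u ∈ R then b u else 0) ?_ t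
      (Finset.mem_filter.2 ⟨Finset.mem_univ t, (hγR t ht).2.1⟩)
    · rw [if_pos ht] at this
      rw [← map_natCast (HahnSeries.C : Kb p →+* C p), this, map_zero]
    · rw [← hz]
      refine (Finset.sum_subset_zero_on_sdiff
        (fun u hu => Finset.mem_filter.2 ⟨Finset.mem_univ u, (hγR u hu).2.1⟩) ?_ ?_).symm
      · intro u hu
        rw [Finset.mem_sdiff] at hu
        rw [if_neg hu.2, Nat.cast_zero, zero_mul]
      · intro u hu
        rw [if_pos hu]
  have hzero := moore p R _ _ hind hlead t₀ ht₀R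
  refine coeff_ne_zero_of_ord ?_ (HahnSeries.C_injective (hzero.trans (map_zero _).symm))
  rw [haord t₀ ht₀R, hγ t₀ ht₀.1]

end Vale.Agent.P217.Sharp
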