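import Vale.Agent.P217.Sharp.Ln
import Vale.Agent.P217.Series

/-!
P217, module M5: the group of points of the Honda law in `C p`, and `L_m` as a homomorphism on
it.
-/

open MvPowerSeries

noncomputable section

namespace Vale.Agent.P217.Sharp

variable {p : ℕ} [hp : Fact p.Prime] {L : Type} [Field L] (U : Untilt p L) {m : ℕ}
  {G : FormalGroup (Kb p)}

theorem honda_isComm (hm : 1 ≤ m) (hG : IsHondaKb p m G) : G.IsComm := by
  classical
  obtain ⟨-, G₀, hG₀, f, hf, hlog⟩ := hG
  have hq : 2 ≤ p ^ m := hp.out.two_le.trans (Nat.le_self_pow (by omega) p)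
  have hf0 : PowerSeries.constantCoeff f = 0 := by
    rw [← PowerSeries.coeff_zero_eq_constantCoeff_apply, hf]; simp
  have hf1 : PowerSeries.coeff 1 f = 1 := by
    rw [hf, Finset.sum_range_succ, Finset.sum_range_one, one_mul, if_neg (show p ^ m ≠ 1 by omega)]
    simp
  have hu : IsUnit (PowerSeries.coeff 1 f) := by rw [hf1]; exact isUnit_one
  have key : ∀ {T : MvPowerSeries (Fin 2) ℚ_[p]}, constantCoeff T = 0 →
      PowerSeries.subst (PowerSeries.subst T f) (f.substInvOfIsUnit hu) = T := fun {T} hT => by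
    rw [← PowerSeries.subst_comp_subst_apply (PowerSeries.HasSubst.of_constantCoeff_zero
      (by exact hf0)) (.of_constantCoeff_zero hT), PowerSeries.subst_substInvOfIsUnit_left _ hf0,
      PowerSeries.subst_X (.of_constantCoeff_zero hT)]
  set GQ : FormalGroup ℚ_[p] := G₀.map PadicInt.Coe.ringHom
  have h10 : ∀ i, constantCoeff (![X 1, X 0] i : MvPowerSeries (Fin 2) ℚ_[p]) = 0 := fun i => by
    fin_cases i <;> simp
  have hs : HasSubst (![X 1, X 0] : Fin 2 → MvPowerSeries (Fin 2) ℚ_[p]) :=
    hasSubst_of_constantCoeff_zero h10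
  have hswap0 : constantCoeff (GQ.toPowerSeries.subst
      (![X 1, X 0] : Fin 2 → MvPowerSeries (Fin 2) ℚ_[p])) = 0 :=
    constantCoeff_subst_eq_zero hs h10 GQ.zero_constantCoeff
  have hsw : GQ.toPowerSeries.subst (![X 1, X 0] : Fin 2 → MvPowerSeries (Fin 2) ℚ_[p]) =
      GQ.toPowerSeries := by
    refine (key hswap0).symm.trans (Eq.trans ?_ (key GQ.zero_constantCoeff))
    congr 1
    have e := congrArg (MvPowerSeries.subst
      (![X 1, X 0] : Fin 2 → MvPowerSeries (Fin 2) ℚ_[p])) hlog
    simp only [PowerSeries.subst] at e ⊢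
    rw [subst_add hs, subst_comp_subst_apply
        (PowerSeries.HasSubst.of_constantCoeff_zero GQ.zero_constantCoeff).const hs,
      subst_comp_subst_apply (PowerSeries.HasSubst.X (0 : Fin 2)).const hs,
      subst_comp_subst_apply (PowerSeries.HasSubst.X (1 : Fin 2)).const hs,
      subst_X hs, subst_X hs] at e
    rw [e]
    simp only [PowerSeries.subst] at hlog
    rw [hlog, add_comm]
    simp
  have h0 : G₀.toPowerSeries.subst (![X 1, X 0] : Fin 2 → MvPowerSeries (Fin 2) ℤ_[p]) =
      G₀.toPowerSeries := by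
    have hinj : Function.Injective (MvPowerSeries.map (σ := Fin 2)
        (PadicInt.Coe.ringHom (p := p))) := fun A B h => by
      ext d : 1
      have h' := congrArg (coeff d) h
      rw [coeff_map, coeff_map] at h'
      exact Subtype.val_injective h'
    apply hinj
    rw [map_subst (hasSubst_of_constantCoeff_zero fun i => by fin_cases i <;> simp),
      ← FormalGroup.map_toPowerSeries]
    refine Eq.trans ?_ hsw
    congr 1
    funext i
    fin_cases i <;> simp
  constructor
  rw [← hG₀, FormalGroup.map_toPowerSeries]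
  conv_lhs => rw [← h0]
  rw [map_subst (hasSubst_of_constantCoeff_zero fun i => by fin_cases i <;> simp)]
  congr 1
  funext i
  fin_cases i <;> simp

/-- The coefficient of a power of one variable in a law. -/
theorem coeff_axis {R : Type*} [CommRing R] (G : FormalGroup R) (i : Fin 2) (a : ℕ) :
    coeff (Finsupp.single i a) G.toPowerSeries = if a = 1 then 1 else 0 := by
  classical
  set φ : Fin 2 → PowerSeries R := fun j => if j = i then PowerSeries.X else 0 with hφ
  have h : MvPowerSeries.subst φ G.toPowerSeries = (PowerSeries.X : PowerSeries R) := by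
    fin_cases i
    · convert FormalGroup.Xzero_eq_X G using 2
      funext j; fin_cases j <;> simp [hφ]
    · convert FormalGroup.zeroX_eq_X G using 2
      funext j; fin_cases j <;> simp [hφ]
  have hs : HasSubst φ := hasSubst_of_constantCoeff_zero fun j => by
    rw [hφ]; dsimp only; split_ifs <;> simp [PowerSeries.X]
  have h2 := congrArg (PowerSeries.coeff a) h
  rw [PowerSeries.coeff_X] at h2
  rw [← h2, PowerSeries.coeff, coeff_subst hs, finsum_eq_single _ (Finsupp.single i a)]
  · rw [Finsupp.prod_single_index (h := fun j k => φ j ^ k) (pow_zero _)]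
    simp [hφ, PowerSeries.X, MvPowerSeries.coeff_X_pow]
  · intro d hd
    by_cases hz : ∀ j, j ≠ i → d j = 0
    · have hd' : d = Finsupp.single i (d i) := by
        ext j
        by_cases hj : j = i
        · subst hj; simp
        · simp [hz j hj, hj]
      rw [hd', Finsupp.prod_single_index (h := fun j k => φ j ^ k) (pow_zero _)]
      have hne : a ≠ d i := fun h' => hd (by rw [hd', ← h'])
      simp [hφ, PowerSeries.X, MvPowerSeries.coeff_X_pow, hne]
    · push Not at hz
      obtain ⟨j, hj, hdj⟩ := hz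
      rw [Finsupp.prod, Finset.prod_eq_zero (Finsupp.mem_support_iff.2 hdj) (by
        simp [hφ, hj, zero_pow hdj])]
      simp

theorem le_ord_fadd {x y : C p} {ε : ℚ} (hε : 0 < ε) (hx : (ε : WithTop ℚ) ≤ ord x)
    (hy : (ε : WithTop ℚ) ≤ ord y) : (ε : WithTop ℚ) ≤ ord (fadd p HahnSeries.C G x y) := by
  have h := le_ord_evalC_of_degree (intCoeff_residue G.toPowerSeries) hε (x := ![x, y])
    (fun i => by fin_cases i <;> simpa) (N := 1) fun d hd => by
      have : d = 0 := by
        ext i
        have := Finset.single_le_sum (f := fun j => d j) (fun j _ => Nat.zero_le _)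
          (Finset.mem_univ i)
        simp only [Finsupp.coe_zero, Pi.zero_apply]
        omega
      subst this
      rw [coeff_zero_eq_constantCoeff_apply]
      exact G.zero_constantCoeff
  simpa [fadd] using h

/-- The sum differs from the usual sum only in mixed terms. -/
theorem le_ord_fadd_sub {x y : C p} (hx : 0 < ord x) (hy : 0 < ord y) :
    ord x + ord y ≤ ord (fadd p HahnSeries.C G x y - x - y) := by
  classical
  have hv := vec2_pos hx hy
  have hi : IntCoeff HahnSeries.C
      (G.toPowerSeries - X 0 - X 1 : MvPowerSeries (Fin 2) (Kb p)) := intCoeff_residue _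
  have e : fadd p HahnSeries.C G x y - x - y =
      evalC p HahnSeries.C (G.toPowerSeries - X 0 - X 1) ![x, y] := by
    rw [evalC_sub (intCoeff_residue _) (intCoeff_residue _) hv,
      evalC_sub (intCoeff_residue _) (intCoeff_residue _) hv, evalC_X, evalC_X, fadd]
    simp
  rw [e]
  refine le_ord_evalC hi hv fun d hd => ?_
  have hmixed : ∀ i, 1 ≤ d i := by
    intro i
    by_contra h
    refine hd ?_
    have hd' : ∃ j, d = Finsupp.single j (d j) := by
      fin_cases i
      · exact ⟨1, by ext k; fin_cases k <;> simp_all⟩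
      · exact ⟨0, by ext k; fin_cases k <;> simp_all⟩
    obtain ⟨j, hj⟩ := hd'
    rw [hj, map_sub, map_sub, coeff_axis, coeff_X, coeff_X]
    fin_cases j <;> simp [Finsupp.single_eq_single_iff]
  rw [ord_mul, Fin.prod_univ_two, ord_mul, ord_pow, ord_pow]
  refine le_trans ?_ (le_add_of_nonneg_left (ord_C_nonneg _))
  refine add_le_add ?_ ?_
  · simpa using nsmul_le_nsmul_left hx.le (hmixed 0)
  · simpa using nsmul_le_nsmul_left hy.le (hmixed 1)

/-- Points of positive valuation, to be added by the law `G`. -/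
def Pt (_G : FormalGroup (Kb p)) : Type := {x : C p // 0 < ord x}

instance : Add (Pt G) :=
  ⟨fun x y => ⟨fadd p HahnSeries.C G x.1 y.1, ord_fadd_pos (intCoeff_residue _) x.2 y.2⟩⟩

instance : Zero (Pt G) := ⟨⟨0, by simp⟩⟩

theorem Pt.val_add (x y : Pt G) : (x + y).1 = fadd p HahnSeries.C G x.1 y.1 := rfl

theorem Pt.val_zero : (0 : Pt G).1 = 0 := rfl

theorem fadd_zero_left {x : C p} (hx : 0 < ord x) : fadd p HahnSeries.C G 0 x = x := by
  have h := congrArg (fun f => evalC p HahnSeries.C f (fun _ : Unit => x))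
    (FormalGroup.zero_add G (f := (X () : MvPowerSeries Unit (Kb p)))
      (PowerSeries.HasSubst.X ()))
  rwa [evalC_fgl_subst (intCoeff_residue _) (intCoeff_residue _) (intCoeff_residue _) (map_zero _)
    (constantCoeff_X _) (fun _ => hx), evalC_zero, evalC_X] at h

theorem fadd_comm [G.IsComm] {x y : C p} (hx : 0 < ord x) (hy : 0 < ord y) :
    fadd p HahnSeries.C G x y = fadd p HahnSeries.C G y x := by
  have h := congrArg (fun f => evalC p HahnSeries.C f ![x, y])
    (FormalGroup.comm' G (f := (X 0 : MvPowerSeries (Fin 2) (Kb p))) (g := X 1)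
      (PowerSeries.HasSubst.X _) (PowerSeries.HasSubst.X _))
  rwa [evalC_fgl_subst (intCoeff_residue _) (intCoeff_residue _) (intCoeff_residue _)
      (constantCoeff_X _) (constantCoeff_X _) (vec2_pos hx hy),
    evalC_fgl_subst (intCoeff_residue _) (intCoeff_residue _) (intCoeff_residue _)
      (constantCoeff_X _) (constantCoeff_X _) (vec2_pos hx hy), evalC_X, evalC_X] at h

instance [G.IsComm] : AddCommMonoid (Pt G) where
  add_assoc x y z := Subtype.ext (fadd_assoc (intCoeff_residue _) x.2 y.2 z.2)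
  zero_add x := Subtype.ext (fadd_zero_left x.2)
  add_zero x := Subtype.ext ((fadd_comm x.2 (0 : Pt G).2).trans (fadd_zero_left x.2))
  add_comm x y := Subtype.ext (fadd_comm x.2 y.2)
  nsmul := nsmulRec

variable [G.IsComm]

theorem Pt.val_nsmul (k : ℕ) (x : Pt G) :
    (k • x).1 = eval₁C p HahnSeries.C (mulSeries G k) x.1 := by
  induction k with
  | zero => rw [zero_smul, Pt.val_zero, eval₁C_mulSeries_zero]
  | succ k ih => rw [succ_nsmul', Pt.val_add, ih, eval₁C_mulSeries_succ (intCoeff_residue _) x.2]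

theorem Pt.val_fsum : ∀ {r : ℕ} (x : Fin r → Pt G),
    fsum p HahnSeries.C G (fun s => (x s).1) = (∑ s, x s).1
  | 0, _ => by rw [Finset.univ_eq_empty, Finset.sum_empty]; rfl
  | r + 1, x => by
    rw [Fin.sum_univ_succ, Pt.val_add, ← Pt.val_fsum fun s => x s.succ]
    rfl

theorem Pt.le_ord_sum {ι : Type*} (s : Finset ι) (x : ι → Pt G) {ε : ℚ} (hε : 0 < ε)
    (h : ∀ i ∈ s, (ε : WithTop ℚ) ≤ ord (x i).1) :
    (ε : WithTop ℚ) ≤ ord (∑ i ∈ s, x i).1 :=
  Finset.sum_induction x (fun z => (ε : WithTop ℚ) ≤ ord z.1)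
    (fun _ _ ha hb => le_ord_fadd hε ha hb) (by simp [Pt.val_zero]) h

theorem Pt.le_ord_nsmul (k : ℕ) (x : Pt G) {ε : ℚ} (hε : 0 < ε)
    (h : (ε : WithTop ℚ) ≤ ord x.1) : (ε : WithTop ℚ) ≤ ord (k • x).1 := by
  have := Pt.le_ord_sum (Finset.range k) (fun _ => x) hε fun _ _ => h
  simpa [Finset.sum_const] using this

theorem Pt.val_p_nsmul (hG : IsHondaKb p m G) (x : Pt G) : (p • x).1 = x.1 ^ p ^ m := by
  rw [Pt.val_nsmul, hG.1, eval₁C_X_pow]

theorem Pt.val_p_pow_nsmul (hG : IsHondaKb p m G) (x : Pt G) (j : ℕ) :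
    (p ^ j • x).1 = x.1 ^ p ^ (m * j) := by
  induction j with
  | zero => simp [one_smul]
  | succ j ih =>
    rw [pow_succ', mul_smul, Pt.val_p_nsmul hG, ih, ← pow_mul, ← pow_add, mul_add, mul_one]

/-- Powers `p^j` as endomorphisms of the points. -/
def powHom (hG : IsHondaKb p m G) (j : ℤ) : Pt G →+ Pt G where
  toFun x := ⟨powZ p x.1 j, ord_powZ_pos x.2 j⟩
  map_zero' := Subtype.ext (powZ_zero_left j)
  map_add' x y := Subtype.ext (powZ_fadd hG x.2 y.2 j)

theorem powHom_powHom (hG : IsHondaKb p m G) (i j : ℤ) (x : Pt G) :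
    powHom hG j (powHom hG i x) = powHom hG (i + j) x :=
  Subtype.ext (powZ_powZ x.1 i j)

theorem isLn_zero : U.IsLn m 0 0 := fun B => ⟨0, fun N _ => by
  rw [Finset.sum_eq_zero fun k _ => by rw [powZ_zero_left, U.sharp_zero, mul_zero]]
  simp⟩

/-- `L_m` as a homomorphism on points. -/
def lnHom (hm : 1 ≤ m) (hG : IsHondaKb p m G) : Pt G →+ L where
  toFun x := (exists_isLn U hm x.2).choose
  map_zero' := isLn_unique U (exists_isLn U hm (0 : Pt G).2).choose_spec (isLn_zero U)
  map_add' x y := isLn_unique U (exists_isLn U hm (x + y).2).choose_spec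
    (isLn_fadd U hm hG x.2 y.2 (exists_isLn U hm x.2).choose_spec
      (exists_isLn U hm y.2).choose_spec)

theorem lnHom_spec (hm : 1 ≤ m) (hG : IsHondaKb p m G) (x : Pt G) :
    U.IsLn m x.1 (lnHom U hm hG x) :=
  (exists_isLn U hm x.2).choose_spec

theorem lnHom_powHom (hm : 1 ≤ m) (hG : IsHondaKb p m G) (x : Pt G) (e : ℤ) :
    lnHom U hm hG (powHom hG ((m : ℤ) * e) x) = (p : L) ^ e * lnHom U hm hG x := by
  have step : ∀ z : Pt G, lnHom U hm hG (powHom hG m z) = (p : L) * lnHom U hm hG z := fun z =>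
    isLn_unique U (lnHom_spec U hm hG _) (isLn_pow U (lnHom_spec U hm hG z))
  induction e using Int.induction_on with
  | zero =>
    rw [mul_zero, zpow_zero, one_mul]
    exact congrArg _ (Subtype.ext (powZ_zero x.1))
  | succ e ih =>
    rw [mul_add, mul_one, ← powHom_powHom, step, ih, zpow_add_one₀ (p_ne_zero U)]
    ring
  | pred e ih =>
    refine mul_left_cancel₀ (p_ne_zero U) ?_
    rw [← step, powHom_powHom, mul_sub, mul_one, sub_add_cancel, ih,
      zpow_sub_one₀ (p_ne_zero U)]
    field_simp [p_ne_zero U]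

end Vale.Agent.P217.Sharp
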