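import Vale.Agent.P217.Sharp.Points
import Vale.Agent.P217.Sharp.Orth

/-!
P217, module M5: the rank lemma. Independent points of the Honda law give an orthogonal family
of the same size, by counting leading coefficients.
-/

noncomputable section

namespace Vale.Agent.P217.Sharp

variable {p : ℕ} [hp : Fact p.Prime] {n : ℕ} {G : FormalGroup (Kb p)} [G.IsComm]

/-- An integral combination of points. -/
def comb {r : ℕ} (v : Fin r → Pt G) (c : Fin r → ℕ) : Pt G := ∑ s, c s • v s

/-- Counting: differences with leading coefficients in small sets are few. -/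
theorem card_le_prod_lead {ι : Type*} (Lead : ℚ → Finset (Kb p)) (h0 : ∀ a, 0 ∈ Lead a)
    (x : ι → C p) : ∀ (A : Finset ℚ) (S : Finset ι),
    (∀ c ∈ S, ∀ c' ∈ S, c ≠ c' →
      ∃ a ∈ A, ord (x c' - x c) = a ∧ (x c' - x c).coeff a ∈ Lead a) →
    S.card ≤ ∏ a ∈ A, (Lead a).card := by
  classical
  intro A
  induction A using Finset.induction_on_min with
  | empty =>
    intro S hS
    rw [Finset.prod_empty, Finset.card_le_one]
    intro c hc c' hc'
    by_contra hne
    obtain ⟨a, ha, -⟩ := hS c hc c' hc' hne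
    simp at ha
  | insert a A hlt ih =>
    intro S hS
    have hna : a ∉ A := fun h => lt_irrefl a (hlt a h)
    rcases S.eq_empty_or_nonempty with rfl | ⟨c₀, hc₀⟩
    · simp
    rw [Finset.prod_insert hna, mul_comm]
    set f : ι → Kb p := fun c => (x c - x c₀).coeff a with hf
    refine (Finset.card_le_mul_card_image (f := f) S (∏ b ∈ A, (Lead b).card) ?_).trans ?_
    · intro k _
      refine ih _ fun c hc c' hc' hne => ?_
      rw [Finset.mem_filter] at hc hc'
      obtain ⟨b, hb, h1, h2⟩ := hS c hc.1 c' hc'.1 hne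
      refine ⟨b, (Finset.mem_insert.1 hb).resolve_left fun hba => ?_, h1, h2⟩
      subst hba
      refine coeff_ne_zero_of_ord h1 ?_
      have := hc'.2.trans hc.2.symm
      simp only [hf, HahnSeries.coeff_sub] at this
      rw [HahnSeries.coeff_sub]
      linear_combination this
    · refine Nat.mul_le_mul_left _ (Finset.card_le_card ?_)
      intro k hk
      obtain ⟨c, hc, rfl⟩ := Finset.mem_image.1 hk
      by_cases hcc : c₀ = c
      · subst hcc
        simpa [hf] using h0 a
      obtain ⟨b, hb, h1, h2⟩ := hS c₀ hc₀ c hc hcc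
      rcases Finset.mem_insert.1 hb with rfl | hb
      · exact h2
      · have : f c = 0 :=
          HahnSeries.coeff_eq_zero_of_lt_orderTop ((WithTop.coe_lt_coe.2 (hlt b hb)).trans_eq h1.symm)
        rw [this]
        exact h0 a

/-- A difference of two combinations starts like a combination that is not too divisible. -/
theorem exists_diff (hn : 1 ≤ n) (hG : IsHondaKb p n G) {r : ℕ} (v : Fin r → Pt G) {lb B : ℚ}
    (hlb : 0 < lb) (hv : ∀ s, (lb : WithTop ℚ) ≤ ord (v s).1) (hB : ∀ c : Fin r → ℕ, (∃ s, ¬ p ∣ c s) → ord (comb v c).1 ≤ (B : WithTop ℚ))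
    {K : ℕ} {c c' : Fin r → ℕ} (hc : ∀ s, c s < p ^ K) (hc' : ∀ s, c' s < p ^ K) (hne : c ≠ c') :
    ∃ (d : Fin r → ℕ) (a : ℚ), ord (comb v d).1 = a ∧ lb ≤ a ∧ a ≤ ((p : ℚ) ^ n) ^ K * B ∧
      ord ((comb v c').1 - (comb v c).1) = a ∧
      ((comb v c').1 - (comb v c).1).coeff a = (comb v d).1.coeff a := by
  classical
  set Q : ℚ := (p : ℚ) ^ n with hQ
  have hQ1 : 1 < Q := lt_of_lt_of_le one_lt_two (two_le_pow hn)
  set H : ℚ := Q ^ K * B with hH
  obtain ⟨K₀, hK₀⟩ := pow_unbounded_of_one_lt (H / lb) hQ1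
  set K' := max K K₀
  have hKK' : p ^ K ≤ p ^ K' := Nat.pow_le_pow_right hp.out.pos (le_max_left _ _)
  set d : Fin r → ℕ := fun s => c' s + p ^ K' - c s with hd
  obtain ⟨s₀, hs₀⟩ := Function.ne_iff.1 hne
  have hnd : ¬ p ^ K ∣ d s₀ := fun h => by
    have h1 : ((p ^ K : ℕ) : ℤ) ∣ (c' s₀ : ℤ) - c s₀ := by
      have e : (c' s₀ : ℤ) - c s₀ = (d s₀ : ℤ) - ((p ^ K' : ℕ) : ℤ) := by
        have := hc s₀; simp only [hd]; omega
      rw [e]
      exact dvd_sub (Int.natCast_dvd_natCast.2 h)
        (Int.natCast_dvd_natCast.2 (Nat.pow_dvd_pow p (le_max_left _ _)))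
    have h2 := Int.eq_zero_of_dvd_of_natAbs_lt_natAbs h1 (by
      have := hc s₀; have := hc' s₀; omega)
    omega
  have hex : ∃ j, ∃ s, ¬ p ^ (j + 1) ∣ d s :=
    ⟨K, s₀, fun h => hnd ((Nat.pow_dvd_pow p (Nat.le_succ K)).trans h)⟩
  set j := Nat.find hex
  obtain ⟨s₁, hs₁⟩ : ∃ s, ¬ p ^ (j + 1) ∣ d s := Nat.find_spec hex
  have hjK : j ≤ K :=
    Nat.find_le ⟨s₀, fun h => hnd ((Nat.pow_dvd_pow p (Nat.le_succ K)).trans h)⟩
  have hdvd : ∀ s, p ^ j ∣ d s := by
    intro s
    rcases Nat.eq_zero_or_pos j with h | h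
    · rw [h, pow_zero]; exact one_dvd _
    · have := Nat.find_min hex (show j - 1 < j by omega)
      push Not at this
      simpa [Nat.sub_add_cancel h] using this s
  choose d' hd' using hdvd
  have hd's : ¬ p ∣ d' s₁ := fun h => hs₁ (by
    rw [hd' s₁, pow_succ]; exact mul_dvd_mul_left _ h)
  have hcomb : (comb v d).1 = (comb v d').1 ^ p ^ (n * j) := by
    rw [← Pt.val_p_pow_nsmul hG, comb, comb, Finset.smul_sum]
    simp only [hd', mul_smul]
  obtain ⟨q, hq⟩ := WithTop.ne_top_iff_exists.1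
    (ne_top_of_le_ne_top WithTop.coe_ne_top (hB d' ⟨s₁, hd's⟩))
  have hqB : q ≤ B := WithTop.coe_le_coe.1 (hq ▸ hB d' ⟨s₁, hd's⟩)
  have hlow : ∀ z, (lb : WithTop ℚ) ≤ ord (comb v z).1 := fun z =>
    Pt.le_ord_sum _ _ hlb fun s _ => Pt.le_ord_nsmul _ _ hlb (hv s)
  have hqlb : lb ≤ q := WithTop.coe_le_coe.1 (hq.symm ▸ hlow d')
  have hdeg : ((p ^ (n * j) : ℕ) : ℚ) = Q ^ j := by rw [Nat.cast_pow, hQ, pow_mul]
  set a : ℚ := Q ^ j * q with ha
  have horda : ord (comb v d).1 = a := by
    rw [hcomb, ord_pow, show ord (comb v d').1 = _ from hq.symm, ← WithTop.coe_nsmul,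
      nsmul_eq_mul, hdeg]
  have haH : a ≤ H := mul_le_mul (pow_le_pow_right₀ hQ1.le hjK) hqB (hlb.le.trans hqlb)
    (pow_nonneg (zero_le_one.trans hQ1.le) _)
  have halb : lb ≤ a := hqlb.trans
    (le_mul_of_one_le_left (hlb.le.trans hqlb) (one_le_pow₀ hQ1.le))
  set big : Pt G := p ^ K' • comb v 1 with hbig
  have hbigH : (H : WithTop ℚ) < ord big.1 := by
    rw [hbig, Pt.val_p_pow_nsmul hG, ord_pow]
    refine lt_of_lt_of_le ?_ (nsmul_le_nsmul_right (hlow 1) _)
    rw [← WithTop.coe_nsmul, WithTop.coe_lt_coe, nsmul_eq_mul, Nat.cast_pow, pow_mul]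
    rw [div_lt_iff₀ hlb] at hK₀
    exact hK₀.trans_le (mul_le_mul_of_nonneg_right
      (pow_le_pow_right₀ hQ1.le (le_max_right _ _)) hlb.le)
  have hsum : comb v c + comb v d = comb v c' + big := by
    rw [hbig, comb, comb, comb, comb, Finset.smul_sum, ← Finset.sum_add_distrib,
      ← Finset.sum_add_distrib]
    refine Finset.sum_congr rfl fun s _ => ?_
    rw [← mul_smul, ← add_smul, ← add_smul, Pi.one_apply, mul_one]
    congr 1
    have := hc s
    simp only [hd]
    omega
  have hsum' := congrArg Subtype.val hsum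
  rw [Pt.val_add, Pt.val_add] at hsum'
  set e : C p := (fadd p HahnSeries.C G (comb v c).1 (comb v d).1 - (comb v c).1 - (comb v d).1) -
    ((fadd p HahnSeries.C G (comb v c').1 big.1 - (comb v c').1 - big.1) + big.1) with he
  have hde : (comb v c').1 - (comb v c).1 = (comb v d).1 + e := by
    rw [he, hsum']; ring
  have hae : (a : WithTop ℚ) < ord e := by
    have hHe : (a : WithTop ℚ) ≤ (H : WithTop ℚ) := WithTop.coe_le_coe.2 haH
    refine lt_ord_sub ?_ (lt_ord_add ?_ (hHe.trans_lt hbigH))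
    · refine lt_of_lt_of_le ?_ (le_ord_fadd_sub (comb v c).2 (comb v d).2)
      refine lt_of_lt_of_le ?_ (add_le_add (hlow c) horda.ge)
      rw [← WithTop.coe_add, WithTop.coe_lt_coe]
      linarith
    · refine lt_of_lt_of_le (hHe.trans_lt hbigH) (le_trans ?_
        (le_ord_fadd_sub (comb v c').2 big.2))
      exact le_add_of_nonneg_left (comb v c').2.le
  have hco : ((comb v c').1 - (comb v c).1).coeff a = (comb v d).1.coeff a := by
    rw [hde, HahnSeries.coeff_add, HahnSeries.coeff_eq_zero_of_lt_orderTop hae, add_zero]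
  refine ⟨d, a, horda, halb, haH, le_antisymm
    (HahnSeries.orderTop_le_of_coeff_ne_zero (hco ▸ coeff_ne_zero_of_ord horda)) ?_, hco⟩
  rw [hde]
  exact le_ord_add horda.ge hae.le

/-- Independent points give an orthogonal family of every size up to their number. -/
theorem exists_orth (hn : 1 ≤ n) (hG : IsHondaKb p n G) {r : ℕ} (v : Fin r → Pt G) {lb B : ℚ}
    (hlb : 0 < lb) (hv : ∀ s, (lb : WithTop ℚ) ≤ ord (v s).1)
    (hB : ∀ c : Fin r → ℕ, (∃ s, ¬ p ∣ c s) → ord (comb v c).1 ≤ (B : WithTop ℚ)) :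
    ∀ g ≤ r, ∃ (e : Fin g → ℤ) (c : Fin g → Fin r → ℕ) (σ : Fin g → ℚ),
      IsOrth p n σ (fun t => powZ p (comb v (c t)).1 ((n : ℤ) * e t)) := by
  classical
  intro g
  induction g with
  | zero =>
    intro _
    exact ⟨Fin.elim0, Fin.elim0, Fin.elim0, fun t => t.elim0, fun t => t.elim0, fun t => t.elim0,
      fun σ₀ b _ t ht => t.elim0⟩
  | succ g ih =>
    intro hgr
    obtain ⟨e, c, σ, hO⟩ := ih (by omega)
    by_contra hno
    set x : Fin g → C p := fun t => powZ p (comb v (c t)).1 ((n : ℤ) * e t)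
    set Q : ℚ := (p : ℚ) ^ n with hQ
    have hQ1 : 1 < Q := lt_of_lt_of_le one_lt_two (two_le_pow hn)
    have hQ0 : (0 : ℚ) < Q := zero_lt_one.trans hQ1
    -- leading coefficients lie in the span of those of the family
    have hspan : ∀ (d : Fin r → ℕ) (a : ℚ) (z : ℤ), ord (comb v d).1 = a → Q ^ z ≤ a →
        a < Q ^ (z + 1) → ∃ b : Fin g → Fin p,
        (comb v d).1.coeff a = ∑ t ∈ Finset.univ.filter (fun t => σ t * Q ^ z = a),
          ((b t : ℕ) : Kb p) * (powZ p (x t) ((n : ℤ) * z)).coeff a := by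
      intro d a z hd hz1 hz2
      set σn : ℚ := Q ^ (-z) * a with hσn
      set xn : C p := powZ p (comb v d).1 ((n : ℤ) * -z) with hxn
      have hordn : ord xn = σn := by
        rw [hxn, ord_powZ hd, hσn, hQ, zpow_mul, zpow_natCast]
      have hσ1 : 1 ≤ σn := by
        rw [hσn, zpow_neg, inv_mul_eq_div, le_div_iff₀ (zpow_pos hQ0 z), one_mul]
        exact hz1
      have hσ2 : σn < Q := by
        rw [hσn, zpow_neg, inv_mul_eq_div, div_lt_iff₀ (zpow_pos hQ0 z)]
        rw [zpow_add_one₀ hQ0.ne', mul_comm] at hz2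
        exact hz2
      have hdep : ¬ ∀ σ₀, FpIndep
          (Finset.univ.filter fun t => (Fin.cons σn σ : Fin (g + 1) → ℚ) t = σ₀)
          (fun t => ((Fin.cons xn x : Fin (g + 1) → C p) t).coeff
            ((Fin.cons σn σ : Fin (g + 1) → ℚ) t)) := by
        intro hind
        refine hno ⟨Fin.cons (-z) e, Fin.cons d c, Fin.cons σn σ, ?_⟩
        have heq : (fun t => powZ p (comb v ((Fin.cons d c : Fin (g + 1) → Fin r → ℕ) t)).1
            ((n : ℤ) * (Fin.cons (-z) e : Fin (g + 1) → ℤ) t)) = Fin.cons xn x := by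
          funext t
          refine Fin.cases ?_ (fun i => ?_) t <;> simp [hxn, x]
        rw [heq]
        refine ⟨fun t => ?_, fun t => ?_, fun t => ?_, hind⟩
        · refine Fin.cases ?_ (fun i => ?_) t
          · simpa using hordn
          · simpa using hO.ord_eq i
        · refine Fin.cases ?_ (fun i => ?_) t
          · simpa using hσ1
          · simpa using hO.one_le i
        · refine Fin.cases ?_ (fun i => ?_) t
          · simpa using hσ2
          · simpa using hO.lt_pow i
      unfold FpIndep at hdep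
      push Not at hdep
      obtain ⟨σ₀, f, hf, t₀, ht₀, hft₀⟩ := hdep
      rw [Finset.sum_filter, Fin.sum_univ_succ] at hf
      simp only [Fin.cons_zero, Fin.cons_succ] at hf
      rw [← Finset.sum_filter] at hf
      rw [Finset.mem_filter] at ht₀
      have hf0 : σn = σ₀ ∧ (f 0 : Kb p) ≠ 0 := by
        by_contra hcon
        have hz : (if σn = σ₀ then (f 0 : Kb p) * xn.coeff σn else 0) = 0 := by
          split_ifs with h
          · rw [not_not.1 fun h' => hcon ⟨h, h'⟩, zero_mul]
          · rfl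
        rw [hz, zero_add] at hf
        have hall := hO.indep σ₀ (fun t => f t.succ) hf
        obtain ⟨-, ht₀'⟩ := ht₀
        revert ht₀' hft₀
        refine Fin.cases (fun hne he => ?_) (fun i hne he => ?_) t₀
        · exact hcon ⟨by simpa using he, hne⟩
        · exact hne (hall i (Finset.mem_filter.2 ⟨Finset.mem_univ i, by simpa using he⟩))
      obtain ⟨rfl, hf0⟩ := hf0
      rw [if_pos rfl] at hf
      set w : Fin g → ZMod p := fun t => -((f t.succ : ZMod p)) / (f 0 : ZMod p)
      refine ⟨fun t => ⟨(w t).val, (w t).val_lt⟩, ?_⟩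
      have hw : ∀ t, ((w t).val : Kb p) * (f 0 : Kb p) = -(f t.succ : Kb p) := by
        intro t
        have hne : (f 0 : ZMod p) ≠ 0 := fun h => hf0 (by
          rw [← map_natCast (ZMod.castHom (dvd_refl p) (Kb p)), h, map_zero])
        have h1 : ((w t).val : ZMod p) * (f 0 : ZMod p) = -(f t.succ : ZMod p) := by
          rw [ZMod.natCast_zmod_val]
          exact div_mul_cancel₀ _ hne
        simpa using congrArg (ZMod.castHom (dvd_refl p) (Kb p)) h1
      have hlead : xn.coeff σn = ∑ t ∈ Finset.univ.filter (fun t => σ t = σn),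
          ((w t).val : Kb p) * (x t).coeff σn := by
        refine mul_left_cancel₀ hf0 ?_
        rw [eq_neg_of_add_eq_zero_left hf, Finset.mul_sum, ← Finset.sum_neg_distrib]
        refine Finset.sum_congr rfl fun t ht => ?_
        rw [(Finset.mem_filter.1 ht).2, ← mul_assoc, mul_comm (f 0 : Kb p), hw, neg_mul]
      have hfil : (Finset.univ.filter fun t => σ t * Q ^ z = a) =
          Finset.univ.filter fun t => σ t = σn := by
        refine Finset.filter_congr fun t _ => ?_
        rw [hσn, zpow_neg, inv_mul_eq_div, eq_div_iff (zpow_pos hQ0 z).ne']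
      have ha : a = (p : ℚ) ^ ((n : ℤ) * z) * σn := by
        rw [hσn, zpow_mul, zpow_natCast, ← hQ, ← mul_assoc, ← zpow_add₀ hQ0.ne', add_neg_cancel,
          zpow_zero, one_mul]
      have hback : powZ p xn ((n : ℤ) * z) = (comb v d).1 := by
        rw [hxn, powZ_powZ, ← mul_add, neg_add_cancel, mul_zero, powZ_zero]
      rw [hfil, ← hback, ha]
      refine (HahnSeries.C : Kb p →+* C p).injective ?_
      rw [map_sum, C_coeff_powZ, hlead, map_sum, powZ_sum]
      refine Finset.sum_congr rfl fun t ht => ?_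
      rw [map_mul, map_natCast, powZ_mul, powZ_natCast_left, map_mul, map_natCast, C_coeff_powZ]
    -- the slots
    obtain ⟨J, hJ⟩ := pow_unbounded_of_one_lt lb⁻¹ hQ1
    obtain ⟨J', hJ'⟩ := pow_unbounded_of_one_lt B hQ1
    set K : ℕ := g * (J + J' + 1) + 1 with hK
    set Sl : Finset (Fin g × ℤ) :=
      Finset.univ ×ˢ Finset.Icc (-(J : ℤ)) ((J' : ℤ) + K) with hSl
    set lev : Fin g × ℤ → ℚ := fun i => σ i.1 * Q ^ i.2 with hlev
    set at_ : ℚ → Finset (Fin g × ℤ) := fun a => Sl.filter fun i => lev i = a with hat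
    set Lead : ℚ → Finset (Kb p) := fun a =>
      (Finset.univ : Finset (↥(at_ a) → Fin p)).image fun b =>
        ∑ i : ↥(at_ a), ((b i : ℕ) : Kb p) * (powZ p (x i.1.1) ((n : ℤ) * i.1.2)).coeff a
      with hLead
    have hLead0 : ∀ a, 0 ∈ Lead a := fun a => Finset.mem_image.2
      ⟨fun _ => ⟨0, hp.out.pos⟩, Finset.mem_univ _, by simp⟩
    have hLeadcard : ∀ a, (Lead a).card ≤ p ^ (at_ a).card := fun a =>
      Finset.card_image_le.trans (by simp)
    set box := Fintype.piFinset fun _ : Fin r => Finset.range (p ^ K) with hbox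
    have hcount := card_le_prod_lead Lead hLead0 (fun c => (comb v c).1) (Sl.image lev) box
      fun c₁ hc₁ c₂ hc₂ hne => by
        simp only [hbox, Fintype.mem_piFinset, Finset.mem_range] at hc₁ hc₂
        obtain ⟨d, a, hd, halb, haH, hdiff, hco⟩ :=
          exists_diff hn hG v hlb hv hB hc₁ hc₂ hne
        obtain ⟨z, hz1, hz2⟩ := exists_mem_Ico_zpow (hlb.trans_le halb) hQ1
        obtain ⟨b, hb⟩ := hspan d a z hd hz1 hz2
        have hzmem : ∀ t, (t, z) ∈ Sl := fun t => by
          have h1 : Q ^ (-(J : ℤ)) < Q ^ (z + 1) := by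
            refine lt_trans ?_ (halb.trans_lt hz2)
            rw [zpow_neg, zpow_natCast, inv_lt_comm₀ (pow_pos hQ0 J) hlb]
            exact hJ
          have h2 : Q ^ z < Q ^ ((J' : ℤ) + K) := by
            refine lt_of_le_of_lt (hz1.trans haH) ?_
            rw [← hQ, zpow_add₀ hQ0.ne', zpow_natCast, zpow_natCast, mul_comm]
            exact mul_lt_mul_of_pos_right hJ' (pow_pos hQ0 K)
          rw [zpow_lt_zpow_iff_right₀ hQ1] at h1 h2
          simp only [hSl, Finset.mem_product, Finset.mem_univ, true_and, Finset.mem_Icc]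
          omega
        have hne' : (Finset.univ.filter fun t => σ t * Q ^ z = a).Nonempty := by
          by_contra hem
          rw [Finset.not_nonempty_iff_eq_empty] at hem
          rw [hem, Finset.sum_empty] at hb
          exact coeff_ne_zero_of_ord hd hb
        obtain ⟨t₁, ht₁⟩ := hne'
        refine ⟨a, Finset.mem_image.2 ⟨(t₁, z), hzmem t₁, (Finset.mem_filter.1 ht₁).2⟩, hdiff, ?_⟩
        rw [hco, hb]
        refine Finset.mem_image.2
          ⟨fun i => if i.1.2 = z then b i.1.1 else ⟨0, hp.out.pos⟩, Finset.mem_univ _, ?_⟩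
        rw [Finset.sum_coe_sort (at_ a) (fun i : Fin g × ℤ =>
          (((if i.2 = z then b i.1 else ⟨0, hp.out.pos⟩ : Fin p) : ℕ) : Kb p) *
            (powZ p (x i.1) ((n : ℤ) * i.2)).coeff a)]
        have himg : (Finset.univ.filter fun t => σ t * Q ^ z = a).image (fun t => (t, z)) =
            (at_ a).filter fun i => i.2 = z := by
          ext ⟨t, k⟩
          simp only [hat, hlev, Finset.mem_image, Finset.mem_filter, Finset.mem_univ, true_and,
            Prod.mk.injEq]
          constructor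
          · rintro ⟨t', h', rfl, rfl⟩
            exact ⟨⟨hzmem _, h'⟩, rfl⟩
          · rintro ⟨⟨-, h'⟩, rfl⟩
            exact ⟨t, h', rfl, rfl⟩
        rw [← Finset.sum_filter_add_sum_filter_not (at_ a) (fun i => i.2 = z), ← himg,
          Finset.sum_image fun u _ w _ huw => (Prod.ext_iff.1 huw).1,
          Finset.sum_eq_zero (s := (at_ a).filter fun i => ¬ i.2 = z) fun i hi => by
            rw [if_neg (Finset.mem_filter.1 hi).2, Nat.cast_zero, zero_mul], add_zero]
        simp
    have hboxcard : box.card = p ^ (K * r) := by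
      rw [hbox, Fintype.card_piFinset, Finset.prod_const, Finset.card_range, Finset.card_univ,
        Fintype.card_fin, pow_mul]
    have hSlcard : Sl.card = g * (J + J' + K + 1) := by
      simp only [hSl, Finset.card_product, Finset.card_univ, Fintype.card_fin, Int.card_Icc]
      congr 1
      omega
    have hle : p ^ (K * r) ≤ p ^ Sl.card := by
      rw [← hboxcard, Finset.card_eq_sum_card_image lev Sl, ← Finset.prod_pow_eq_pow_sum]
      exact hcount.trans (Finset.prod_le_prod' fun a _ => hLeadcard a)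
    rw [Nat.pow_le_pow_iff_right hp.out.one_lt, hSlcard] at hle
    have h1 : K * (g + 1) ≤ K * r := Nat.mul_le_mul_left K hgr
    rw [Nat.mul_succ] at h1
    nlinarith [hK]

/-- The rank lemma, for fixed data. -/
theorem rank_eq_zero {L : Type} [Field L] (U : Untilt p L) {r : ℕ} (hr : r < n)
    (hG : IsHondaKb p n G) (v : Fin r → Pt G) {B : ℚ}
    (hB : ∀ c : Fin r → ℕ, (∃ s, ¬ p ∣ c s) → ord (comb v c).1 ≤ (B : WithTop ℚ))
    (y : Fin r → ℤ → L) (hy : ∀ s M, U.IsLn n (powZ p (v s).1 M) (y s M))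
    (c : Fin r → L) (hc : ∀ M, ∑ s, c s * y s M = 0) : c = 0 := by
  classical
  have hn : 1 ≤ n := by omega
  obtain ⟨lb, hlb, hv⟩ : ∃ lb : ℚ, 0 < lb ∧ ∀ s, (lb : WithTop ℚ) ≤ ord (v s).1 :=
    exists_pos_bound fun s => (v s).2
  obtain ⟨e, k, σ, hO⟩ := exists_orth hn hG v hlb hv hB r le_rfl
  set Bm : Matrix (Fin r) (Fin r) L := Matrix.of fun t s => (p : L) ^ e t * (k t s : L) with hBm
  have hY : ∀ t M, U.IsLn n (powZ p (powZ p (comb v (k t)).1 ((n : ℤ) * e t)) M)
      (∑ s, Bm t s * y s M) := by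
    intro t M
    have h := lnHom_spec U hn hG (powHom hG ((n : ℤ) * e t) (powHom hG M (comb v (k t))))
    have e1 : lnHom U hn hG (powHom hG ((n : ℤ) * e t) (powHom hG M (comb v (k t)))) =
        ∑ s, Bm t s * y s M := by
      rw [lnHom_powHom, comb, map_sum, map_sum, Finset.mul_sum]
      refine Finset.sum_congr rfl fun s _ => ?_
      rw [map_nsmul, map_nsmul, nsmul_eq_mul,
        isLn_unique U (lnHom_spec U hn hG (powHom hG M (v s))) (hy s M), hBm, Matrix.of_apply,
        mul_assoc]
    rw [e1] at h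
    convert h using 1
    show _ = powZ p (powZ p (comb v (k t)).1 M) _
    rw [powZ_powZ, powZ_powZ, add_comm]
  have hker : ∀ D : Fin r → L, (∀ M, ∑ s, Matrix.vecMul D Bm s * y s M = 0) → D = 0 := by
    intro D hD
    refine hO.eq_zero U hn hr D _ hY fun M => ?_
    rw [← hD M]
    simp only [Matrix.vecMul, dotProduct, Finset.mul_sum, Finset.sum_mul, mul_assoc]
    exact Finset.sum_comm
  have hinj : Function.Injective (Matrix.vecMulLinear Bm) := by
    rw [← LinearMap.ker_eq_bot, LinearMap.ker_eq_bot']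
    intro D hD
    refine hker D fun M => ?_
    rw [Matrix.vecMulLinear_apply] at hD
    simp [hD]
  obtain ⟨D, hD⟩ := LinearMap.injective_iff_surjective.1 hinj c
  rw [Matrix.vecMulLinear_apply] at hD
  rw [← hD, hker D fun M => by rw [hD]; exact hc M, Matrix.zero_vecMul]

end Vale.Agent.P217.Sharp

namespace Vale.Agent.P217

/-- The rank lemma. -/
theorem rankStatement (p : ℕ) [Fact p.Prime] : RankStatement p := by
  intro L _ U n r hr G hG v hv hI y hy c hc
  have := Sharp.honda_isComm (show 1 ≤ n by omega) hG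
  obtain ⟨B, hB⟩ := hI
  refine Sharp.rank_eq_zero U hr hG (fun s => ⟨v s, hv s⟩)
    (B := B) (fun k hk => ?_) y hy c hc
  refine le_trans (le_of_eq ?_) (hB k hk)
  let w : Fin r → Sharp.Pt G := fun s => ⟨v s, hv s⟩
  show ord (∑ s, k s • w s).1 = _
  rw [← Sharp.Pt.val_fsum]
  simp only [Sharp.Pt.val_nsmul]
  rfl

end Vale.Agent.P217
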