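import Vale.Agent.P217.Base
import Vale.Agent.P217.Hahn.AlgClosed

/-!
P217, module M5: the untilt `UR p = W(O) / (p - [t])` of the ring `O` of Hahn series with
nonnegative exponents. Every element is zero or a Teichmüller element times a unit, which gives
that it is a domain with a valuation `val` with `val p = 1`, and it is `p`-adically complete.
-/

open HahnSeries

noncomputable section

namespace Vale.Agent.P217.Sharp

variable {p : ℕ} [Fact p.Prime]

/-- The valuation of `C p`, bundled. -/
abbrev vC : AddValuation (C p) (WithTop ℚ) := HahnSeries.addVal ℚ (Kb p)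

theorem mem_OC_v {x : C p} : x ∈ OC p ↔ 0 ≤ vC x := by rw [addVal_apply]; rfl

theorem v_nonneg (x : OC p) : 0 ≤ vC (x : C p) := mem_OC_v.1 x.2

/-- The monomial `t ^ q`. -/
def tp (q : ℚ) (hq : 0 ≤ q) : OC p :=
  ⟨HahnSeries.single q 1, by
    rw [mem_OC_v, addVal_apply]
    exact (WithTop.coe_le_coe.2 hq).trans orderTop_single_le⟩

theorem v_single (q : ℚ) : vC (HahnSeries.single q (1 : Kb p)) = (q : WithTop ℚ) := by
  rw [addVal_apply, orderTop_single one_ne_zero]

/-- The uniformiser used to cut out the untilt. -/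
def ϖ : OC p := tp 1 zero_le_one

theorem v_pi : vC ((ϖ : OC p) : C p) = (1 : ℚ) := v_single 1

theorem pi_ne_zero : (ϖ : OC p) ≠ 0 := fun h => by simpa [h] using v_pi (p := p)

theorem coe_v_ne_top {x : OC p} (hx : x ≠ 0) : vC (x : C p) ≠ ⊤ :=
  (AddValuation.ne_top_iff _).2 fun h => hx (Subtype.ext h)

theorem dvd_of_v_le {a b : OC p} (ha : a ≠ 0) (h : vC (a : C p) ≤ vC (b : C p)) :
    a ∣ b := by
  have ha' : (a : C p) ≠ 0 := fun h => ha (Subtype.ext h)
  refine ⟨⟨(b : C p) / a, ?_⟩, Subtype.ext (by simp [mul_div_cancel₀ _ ha'])⟩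
  rw [mem_OC_v]
  have : vC (a : C p) + vC ((b : C p) / (a : C p)) = vC (b : C p) := by
    rw [← AddValuation.map_mul, mul_div_cancel₀ _ ha']
  rcases eq_or_ne (vC ((b : C p) / (a : C p))) ⊤ with hc | hc
  · simp [hc]
  · lift vC ((b : C p) / (a : C p)) to ℚ using hc with c hc'
    lift vC (a : C p) to ℚ using (coe_v_ne_top ha) with qa hqa
    rw [← this, ← WithTop.coe_add, WithTop.coe_le_coe] at h
    exact WithTop.coe_le_coe.2 (by linarith)

theorem eq_zero_of_pi_pow_dvd {a : OC p} (h : ∀ i : ℕ, (ϖ : OC p) ^ i ∣ a) : a = 0 := by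
  by_contra ha
  lift vC (a : C p) to ℚ using (coe_v_ne_top ha) with qa hqa
  obtain ⟨i, hi⟩ := exists_nat_gt qa
  obtain ⟨c, hc⟩ := h i
  have h1 : ((i : ℚ) : WithTop ℚ) ≤ vC (a : C p) := by
    rw [hc]
    push_cast
    rw [AddValuation.map_mul, AddValuation.map_pow, v_pi, ← WithTop.coe_nsmul, nsmul_one]
    exact le_add_of_nonneg_right (v_nonneg c)
  rw [← hqa, WithTop.coe_le_coe] at h1
  linarith

/-- The constant coefficient. -/
def coeff0 : OC p →+* Kb p where
  toFun x := (x : C p).coeff 0
  map_one' := by simp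
  map_zero' := by simp
  map_add' x y := by simp
  map_mul' x y := by
    have hx : vC ((x : C p) - HahnSeries.single 0 ((x : C p).coeff 0)) > 0 := by
      rw [addVal_apply, gt_iff_lt]
      refine lt_of_le_of_ne (le_orderTop_iff_forall.2 fun q hq => ?_) fun he => ?_
      · have hq0 : q < 0 := WithTop.coe_lt_coe.1 hq
        rw [HahnSeries.coeff_sub, coeff_single_of_ne hq0.ne, sub_zero]
        exact coeff_eq_zero_of_lt_orderTop (hq.trans_le (addVal_apply (x := (x : C p)) ▸ v_nonneg x))
      · refine coeff_orderTop_ne he.symm ?_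
        simp
    have : (((x : C p) - HahnSeries.single 0 ((x : C p).coeff 0)) *
        (y : C p)).coeff 0 = 0 := by
      refine coeff_eq_zero_of_lt_orderTop ?_
      rw [← addVal_apply, AddValuation.map_mul]
      exact lt_of_lt_of_le hx (le_add_of_nonneg_right (v_nonneg y))
    rw [sub_mul, HahnSeries.coeff_sub, sub_eq_zero, coeff_single_zero_mul] at this
    simpa using this

theorem v_pos_iff {x : OC p} : 0 < vC (x : C p) ↔ coeff0 x = 0 := by
  rw [addVal_apply]
  refine ⟨fun h => coeff_eq_zero_of_lt_orderTop h, fun h => ?_⟩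
  refine lt_of_le_of_ne (addVal_apply (x := (x : C p)) ▸ v_nonneg x) fun he => ?_
  exact coeff_orderTop_ne he.symm h

theorem isUnit_iff_coeff0 {x : OC p} : IsUnit x ↔ coeff0 x ≠ 0 := by
  refine ⟨fun h => (h.map coeff0).ne_zero, fun h => ?_⟩
  have hv : vC (x : C p) = 0 :=
    le_antisymm (not_lt.1 fun hh => h (v_pos_iff.1 hh)) (v_nonneg x)
  refine isUnit_of_dvd_one (dvd_of_v_le (fun h0 => h (by simp [h0])) ?_)
  simp [hv]

variable (p)

instance : CharP (OC p) p :=
  (RingHom.charP_iff (OC p).subtype Subtype.val_injective p).2 inferInstance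


instance : PerfectRing (OC p) p := by
  refine PerfectRing.ofSurjective _ p fun a => ?_
  obtain ⟨z, hz⟩ := IsAlgClosed.exists_pow_nat_eq (a : C p) (Fact.out : p.Prime).pos
  refine ⟨⟨z, ?_⟩, Subtype.ext hz⟩
  rw [mem_OC_v]
  by_contra hneg
  have h := v_nonneg a
  rw [← hz, AddValuation.map_pow] at h
  exact absurd h (not_le.2 ((nsmul_neg_iff (Fact.out : p.Prime).ne_zero).2 (not_le.1 hneg)))


/-- The generator of the kernel. -/
def xi : WittVector p (OC p) := (p : WittVector p (OC p)) - WittVector.teichmuller p ϖ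

theorem p_dvd_iff (y : (WittVector p (OC p))) : (p : (WittVector p (OC p))) ∣ y ↔ WittVector.constantCoeff y = 0 := by
  rw [← Ideal.mem_span_singleton, WittVector.mem_span_p_iff_coeff_zero_eq_zero]
  rfl

theorem constantCoeff_teich (z : OC p) : WittVector.constantCoeff (WittVector.teichmuller p z) = z :=
  WittVector.teichmuller_coeff_zero p z

theorem constantCoeff_xi : WittVector.constantCoeff (xi p) = -ϖ := by
  rw [xi, map_sub, map_natCast, constantCoeff_teich, CharP.cast_eq_zero, zero_sub]

theorem exists_teich_add (y : (WittVector p (OC p))) :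
    ∃ y', y = WittVector.teichmuller p (WittVector.constantCoeff y) + p * y' := by
  obtain ⟨y', hy'⟩ := (p_dvd_iff p (y - WittVector.teichmuller p (WittVector.constantCoeff y))).2
    (by rw [map_sub, constantCoeff_teich, sub_self])
  exact ⟨y', by rw [← hy', add_sub_cancel]⟩

theorem p_mul_cancel {a b : (WittVector p (OC p))} (h : (p : (WittVector p (OC p))) * a = p * b) : a = b :=
  sub_eq_zero.1 (WittVector.eq_zero_of_p_mul_eq_zero (p := p) _
    (by rw [sub_mul, mul_comm a, mul_comm b, h, sub_self]))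

theorem p_pow_dvd_of_dvd_xi_mul (i : ℕ) :
    ∀ d : (WittVector p (OC p)), (p : (WittVector p (OC p))) ^ i ∣ xi p * d → (p : (WittVector p (OC p))) ^ i ∣ d := by
  induction i with
  | zero => exact fun d _ => by simp
  | succ i ih =>
    intro d h
    have h0 : WittVector.constantCoeff (xi p * d) = 0 :=
      (p_dvd_iff p _).1 ((dvd_pow_self _ (Nat.succ_ne_zero i)).trans h)
    rw [map_mul, constantCoeff_xi, neg_mul, neg_eq_zero] at h0
    have hd : WittVector.constantCoeff d = 0 := (mul_eq_zero.1 h0).resolve_left pi_ne_zero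
    obtain ⟨d', hd'⟩ := (p_dvd_iff p d).2 hd
    obtain ⟨c, hc⟩ := h
    rw [hd', mul_left_comm, pow_succ', mul_assoc] at hc
    rw [hd', pow_succ']
    exact mul_dvd_mul_left _ (ih d' ⟨c, p_mul_cancel p hc⟩)

theorem eq_zero_of_p_pow_dvd {y : (WittVector p (OC p))} (h : ∀ i : ℕ, (p : (WittVector p (OC p))) ^ i ∣ y) : y = 0 := by
  ext i
  obtain ⟨c, hc⟩ := h (i + 1)
  have := (WittVector.mem_span_p_pow_iff_le_coeff_eq_zero (p := p) y (i + 1)).1
    (Ideal.mem_span_singleton.2 ⟨c, hc⟩) i (Nat.lt_succ_self i)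
  rw [this]
  simp

/-- Cauchy sequences for the `p`-adic divisibility converge. -/
theorem exists_limit {x : ℕ → (WittVector p (OC p))} (h : ∀ i, (p : (WittVector p (OC p))) ^ i ∣ x (i + 1) - x i) :
    ∃ L, ∀ i, (p : (WittVector p (OC p))) ^ i ∣ L - x i := by
  have hc : ∀ {m n}, m ≤ n → x m ≡ x n [SMOD (Ideal.span {(p : (WittVector p (OC p)))} ^ m • ⊤ : Submodule (WittVector p (OC p)) (WittVector p (OC p)))] := by
    intro m n hmn
    induction n, hmn using Nat.le_induction with
    | base => exact SModEq.refl _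
    | succ n hmn ih =>
      refine ih.trans ?_
      rw [SModEq.sub_mem, smul_eq_mul, Ideal.mul_top, Ideal.span_singleton_pow,
        Ideal.mem_span_singleton, ← dvd_neg, neg_sub]
      exact (pow_dvd_pow _ hmn).trans (h n)
  obtain ⟨L, hL⟩ := IsPrecomplete.prec' (I := Ideal.span {(p : (WittVector p (OC p)))}) x hc
  refine ⟨L, fun i => ?_⟩
  have := hL i
  rw [SModEq.sub_mem, smul_eq_mul, Ideal.mul_top, Ideal.span_singleton_pow,
    Ideal.mem_span_singleton] at this
  rwa [← dvd_neg, neg_sub]

/-- The untilt. -/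
abbrev UR (p : ℕ) [Fact p.Prime] : Type :=
  WittVector p (OC p) ⧸ Ideal.span {xi p}

/-- The projection. -/
def mk : WittVector p (OC p) →+* UR p := Ideal.Quotient.mk _

theorem mk_surjective : Function.Surjective (mk p) := Ideal.Quotient.mk_surjective

/-- The multiplicative section. -/
def sharp : OC p →*₀ UR p where
  toFun z := mk p (WittVector.teichmuller p z)
  map_zero' := by simp [WittVector.teichmuller_zero]
  map_one' := by simp
  map_mul' a b := by simp

theorem mk_teich (z : OC p) : mk p (WittVector.teichmuller p z) = sharp p z := rfl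

theorem mk_xi : mk p (xi p) = 0 := Ideal.Quotient.eq_zero_iff_dvd _ _ |>.2 dvd_rfl

theorem sharp_pi : sharp p (ϖ : OC p) = p := by
  have : mk p ((p : WittVector p (OC p)) - WittVector.teichmuller p ϖ) = 0 := mk_xi p
  rw [map_sub, map_natCast, sub_eq_zero] at this
  exact this.symm

theorem sharp_eq_zero {z : OC p} (h : sharp p z = 0) : z = 0 := by
  refine eq_zero_of_pi_pow_dvd fun i => ?_
  induction i generalizing z with
  | zero => simp
  | succ i ih =>
    obtain ⟨y, hy⟩ := (Ideal.Quotient.eq_zero_iff_dvd _ _).1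
      (show Ideal.Quotient.mk _ (WittVector.teichmuller p z) = 0 from h)
    have hc : z = -ϖ * WittVector.constantCoeff y := by
      have e := congrArg WittVector.constantCoeff hy
      rwa [map_mul, constantCoeff_teich, constantCoeff_xi] at e
    set z' : OC p := -WittVector.constantCoeff y with hz'
    obtain ⟨y', hy'⟩ := (p_dvd_iff p (y + WittVector.teichmuller p z')).2
      (by rw [map_add, constantCoeff_teich, hz', add_neg_cancel])
    have hzz : z = ϖ * z' := by rw [hc, hz']; ring
    have key : (p : WittVector p (OC p)) * WittVector.teichmuller p z' =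
        p * (xi p * y') := by
      have e1 : y = -WittVector.teichmuller p z' + p * y' := by rw [← hy']; ring
      rw [hzz, map_mul, e1] at hy
      have e2 : WittVector.teichmuller p (ϖ : OC p) = p - xi p := (sub_sub_cancel _ _).symm
      rw [e2] at hy
      linear_combination hy
    rw [hzz, pow_succ']
    refine mul_dvd_mul_left _ (ih ?_)
    show mk p (WittVector.teichmuller p z') = 0
    rw [p_mul_cancel p key, map_mul, mk_xi, zero_mul]

theorem untilt_eq_zero_of_p_pow_dvd {x : UR p} (h : ∀ i : ℕ, (p : UR p) ^ i ∣ x) : x = 0 := by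
  obtain ⟨y, rfl⟩ := mk_surjective p x
  have h' : ∀ i : ℕ, ∃ a b, y = (p : WittVector p (OC p)) ^ i * a + xi p * b := by
    intro i
    obtain ⟨c, hc⟩ := h i
    obtain ⟨a, rfl⟩ := mk_surjective p c
    have : mk p (y - (p : WittVector p (OC p)) ^ i * a) = 0 := by simp [hc]
    obtain ⟨b, hb⟩ := (Ideal.Quotient.eq_zero_iff_dvd _ _).1 this
    exact ⟨a, b, by rw [← hb]; ring⟩
  choose a b hab using h'
  obtain ⟨L, hL⟩ := exists_limit p (x := b) fun i => p_pow_dvd_of_dvd_xi_mul p i _
    ⟨a i - p * a (i + 1), by linear_combination hab i - hab (i + 1)⟩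
  have : y - xi p * L = 0 := by
    refine eq_zero_of_p_pow_dvd p fun i => ?_
    obtain ⟨c, hc⟩ := hL i
    exact ⟨a i - xi p * c, by linear_combination hab i - xi p * hc⟩
  rw [sub_eq_zero] at this
  rw [this, map_mul, mk_xi, zero_mul]

theorem isUnit_mk {y : WittVector p (OC p)} (h : IsUnit (WittVector.constantCoeff y)) :
    IsUnit (mk p y) := by
  obtain ⟨u, hu⟩ := h
  have hy : (p : WittVector p (OC p)) ∣
      y * WittVector.teichmuller p ((u⁻¹ : (OC p)ˣ) : OC p) - 1 :=
    (p_dvd_iff p _).2 (by rw [map_sub, map_mul, map_one, constantCoeff_teich, ← hu, Units.mul_inv, sub_self])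
  have hj := IsAdicComplete.le_jacobson_bot (Ideal.span {(p : WittVector p (OC p))})
    (Ideal.mem_span_singleton.2 hy)
  have := (Ideal.mem_jacobson_bot.1 hj) 1
  rw [mul_one, sub_add_cancel] at this
  exact (isUnit_of_mul_isUnit_left this).map _

/-- Every element is a multiplicative representative times a unit. -/
theorem exists_eq_sharp_mul (x : UR p) : ∃ (z : OC p) (u : UR p),
    IsUnit u ∧ x = sharp p z * u := by
  by_cases h : ∀ i : ℕ, (p : UR p) ^ i ∣ x
  · exact ⟨0, 1, isUnit_one, by simp [untilt_eq_zero_of_p_pow_dvd p h]⟩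
  push Not at h
  obtain ⟨i, hi⟩ := h
  induction i generalizing x with
  | zero => simp at hi
  | succ i ih =>
    obtain ⟨y, rfl⟩ := mk_surjective p x
    obtain ⟨y', hy'⟩ := exists_teich_add p y
    set c0 := WittVector.constantCoeff y
    have hmk : mk p y = sharp p c0 + p * mk p y' := by
      conv_lhs => rw [hy']
      simp [mk_teich]
    by_cases hc : (ϖ : OC p) ∣ c0
    · obtain ⟨e, he⟩ := hc
      have hx : mk p y = p * (sharp p e + mk p y') := by
        rw [hmk, he, map_mul, sharp_pi]; ring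
      obtain ⟨z, u, hu, hz⟩ := ih (sharp p e + mk p y') fun hd => hi (by
        rw [hx, pow_succ']; exact mul_dvd_mul_left _ hd)
      exact ⟨ϖ * z, u, hu, by rw [hx, hz, map_mul, sharp_pi, mul_assoc]⟩
    · have hc0 : c0 ≠ 0 := fun h => hc (h ▸ dvd_zero _)
      have hlt : vC (c0 : C p) < vC ((ϖ : OC p) : C p) :=
        not_le.1 fun h => hc (dvd_of_v_le pi_ne_zero h)
      obtain ⟨d, hd⟩ := dvd_of_v_le hc0 hlt.le
      have hd0 : coeff0 d = 0 := v_pos_iff.1 (by
        by_contra hle
        have h0 : vC (d : C p) = 0 := le_antisymm (not_lt.1 hle) (v_nonneg d)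
        rw [hd] at hlt
        push_cast at hlt
        rw [AddValuation.map_mul, h0, add_zero] at hlt
        exact lt_irrefl _ hlt)
      refine ⟨c0, mk p (1 + WittVector.teichmuller p d * y'), isUnit_mk p ?_, ?_⟩
      · rw [isUnit_iff_coeff0, map_add, map_one, map_mul, constantCoeff_teich, map_add, map_one,
          map_mul, hd0, zero_mul, add_zero]
        exact one_ne_zero
      · rw [hmk, ← sharp_pi, hd, map_mul, map_add, map_one, map_mul, mk_teich]
        ring

instance : Nontrivial (UR p) :=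
  ⟨⟨1, 0, fun h => one_ne_zero (sharp_eq_zero p (z := (1 : OC p)) (by rw [map_one, h]))⟩⟩

instance : NoZeroDivisors (UR p) := by
  refine ⟨fun {a b} h => ?_⟩
  obtain ⟨za, ua, hua, rfl⟩ := exists_eq_sharp_mul p a
  obtain ⟨zb, ub, hub, rfl⟩ := exists_eq_sharp_mul p b
  rw [mul_mul_mul_comm, ← map_mul, (hua.mul hub).mul_left_eq_zero] at h
  rcases mul_eq_zero.1 (sharp_eq_zero p h) with h | h <;> simp [h]

instance : IsDomain (UR p) := NoZeroDivisors.to_isDomain _

/-- The residue map. -/
def residue : UR p →+* Kb p :=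
  Ideal.Quotient.lift _ (coeff0.comp WittVector.constantCoeff) fun y hy => by
    obtain ⟨c, rfl⟩ := Ideal.mem_span_singleton.1 hy
    have : coeff0 (ϖ : OC p) = 0 := v_pos_iff.1 (by rw [v_pi]; exact WithTop.coe_lt_coe.2 one_pos)
    rw [map_mul, RingHom.comp_apply, constantCoeff_xi, map_neg, this, neg_zero, zero_mul]

theorem residue_sharp (z : OC p) : residue p (sharp p z) = coeff0 z := by
  show coeff0 (WittVector.constantCoeff (WittVector.teichmuller p z)) = _
  rw [constantCoeff_teich]

theorem isUnit_iff_residue {x : UR p} : IsUnit x ↔ residue p x ≠ 0 := by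
  refine ⟨fun h => (h.map (residue p)).ne_zero, fun h => ?_⟩
  obtain ⟨z, u, hu, rfl⟩ := exists_eq_sharp_mul p x
  rw [map_mul, residue_sharp] at h
  exact ((isUnit_iff_coeff0.2 (left_ne_zero_of_mul h)).map (sharp p)).mul hu

theorem v_le_of_sharp_dvd {a b : OC p} (h : sharp p a ∣ sharp p b) :
    vC (a : C p) ≤ vC (b : C p) := by
  by_contra hlt
  rw [not_le] at hlt
  have hb : b ≠ 0 := fun h0 => by simp [h0] at hlt
  obtain ⟨c, rfl⟩ := dvd_of_v_le hb hlt.le
  obtain ⟨e, he⟩ := h
  rw [map_mul, mul_assoc] at he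
  have h1 : sharp p c * e = 1 :=
    (mul_eq_left₀ fun h0 => hb (sharp_eq_zero p h0)).1 he.symm
  have h2 : residue p (sharp p c) ≠ 0 := (isUnit_iff_residue p).1 (IsUnit.of_mul_eq_one _ h1)
  rw [residue_sharp, ne_eq, ← v_pos_iff, not_lt] at h2
  push_cast at hlt
  rw [AddValuation.map_mul, le_antisymm h2 (v_nonneg c), add_zero] at hlt
  exact lt_irrefl _ hlt

/-- The valuation of an element. -/
def val0 (x : UR p) : WithTop ℚ :=
  vC ((exists_eq_sharp_mul p x).choose : C p)

theorem val0_sharp_mul (z : OC p) {u : UR p} (hu : IsUnit u) :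
    val0 p (sharp p z * u) = vC (z : C p) := by
  obtain ⟨u', hu', h⟩ := (exists_eq_sharp_mul p (sharp p z * u)).choose_spec
  refine le_antisymm (v_le_of_sharp_dvd p ?_) (v_le_of_sharp_dvd p ?_)
  · exact hu.dvd_mul_right.1 ⟨u', h⟩
  · exact hu'.dvd_mul_right.1 ⟨u, h.symm⟩

theorem le_val0_iff (z : OC p) (hz : z ≠ 0) (x : UR p) :
    vC (z : C p) ≤ val0 p x ↔ sharp p z ∣ x := by
  obtain ⟨w, u, hu, rfl⟩ := exists_eq_sharp_mul p x
  rw [val0_sharp_mul p w hu, hu.dvd_mul_right]
  exact ⟨fun h => map_dvd _ (dvd_of_v_le hz h), v_le_of_sharp_dvd p⟩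

/-- The valuation of the untilt, with `val p = 1`. -/
def val : AddValuation (UR p) (WithTop ℚ) :=
  AddValuation.of (val0 p)
    (by simpa using val0_sharp_mul p (0 : OC p) isUnit_one)
    (by simpa using val0_sharp_mul p (1 : OC p) isUnit_one)
    (fun x y => by
      obtain ⟨a, ua, hua, rfl⟩ := exists_eq_sharp_mul p x
      obtain ⟨b, ub, hub, rfl⟩ := exists_eq_sharp_mul p y
      rw [val0_sharp_mul p a hua, val0_sharp_mul p b hub]
      rcases eq_or_ne a 0 with rfl | ha
      · simp [val0_sharp_mul p b hub]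
      rcases eq_or_ne b 0 with rfl | hb
      · simp [val0_sharp_mul p a hua]
      rcases le_total (vC (a : C p)) (vC (b : C p)) with h | h
      · rw [min_eq_left h, le_val0_iff p a ha]
        exact dvd_add (dvd_mul_right _ _)
          ((map_dvd _ (dvd_of_v_le ha h)).trans (dvd_mul_right _ _))
      · rw [min_eq_right h, le_val0_iff p b hb]
        exact dvd_add ((map_dvd _ (dvd_of_v_le hb h)).trans (dvd_mul_right _ _))
          (dvd_mul_right _ _))
    (fun x y => by
      obtain ⟨a, ua, hua, rfl⟩ := exists_eq_sharp_mul p x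
      obtain ⟨b, ub, hub, rfl⟩ := exists_eq_sharp_mul p y
      rw [mul_mul_mul_comm, ← map_mul, val0_sharp_mul p _ (hua.mul hub), val0_sharp_mul p a hua,
        val0_sharp_mul p b hub]
      push_cast
      rw [AddValuation.map_mul])

theorem val_apply (x : UR p) : val p x = val0 p x := rfl

theorem val_sharp (z : OC p) : val p (sharp p z) = vC (z : C p) := by
  simpa [val_apply] using val0_sharp_mul p z isUnit_one

theorem val_p : val p (p : UR p) = (1 : ℚ) := by
  rw [← sharp_pi, val_sharp, v_pi]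

theorem val_nonneg (x : UR p) : 0 ≤ val p x := by
  obtain ⟨a, ua, hua, rfl⟩ := exists_eq_sharp_mul p x
  rw [val_apply, val0_sharp_mul p a hua]
  exact v_nonneg a

theorem val_pos_iff (x : UR p) : 0 < val p x ↔ residue p x = 0 := by
  obtain ⟨a, ua, hua, rfl⟩ := exists_eq_sharp_mul p x
  rw [val_apply, val0_sharp_mul p a hua, v_pos_iff, map_mul, residue_sharp,
    (hua.map (residue p)).mul_left_eq_zero]

/-- `p`-adic completeness. -/
theorem exists_lim {x : ℕ → UR p} (h : ∀ i : ℕ, (p : UR p) ^ i ∣ x (i + 1) - x i) :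
    ∃ L, ∀ i : ℕ, (p : UR p) ^ i ∣ L - x i := by
  choose d hd using h
  choose D hD using fun i => mk_surjective p (d i)
  obtain ⟨y0, hy0⟩ := mk_surjective p (x 0)
  set y : ℕ → WittVector p (OC p) := fun i =>
    y0 + ∑ j ∈ Finset.range i, (p : WittVector p (OC p)) ^ j * D j with hy
  have hyx : ∀ i, mk p (y i) = x i := by
    intro i
    induction i with
    | zero => simp [hy, hy0]
    | succ i ih =>
      have : y (i + 1) = y i + (p : WittVector p (OC p)) ^ i * D i := by
        simp [hy, Finset.sum_range_succ, add_assoc]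
      rw [this, map_add, ih, map_mul, map_pow, map_natCast, hD, ← hd, add_sub_cancel]
  obtain ⟨L, hL⟩ := exists_limit p (x := y) fun i => ⟨D i, by simp [hy, Finset.sum_range_succ]⟩
  refine ⟨mk p L, fun i => ?_⟩
  obtain ⟨c, hc⟩ := hL i
  exact ⟨mk p c, by rw [← hyx, ← map_sub, hc, map_mul, map_pow, map_natCast]⟩

end Vale.Agent.P217.Sharp
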